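import Mathlib

set_option autoImplicit false

/-!
# P181, ST, T2b: one triple of columns

The coefficients of `(y - y') ^ 2 (y + y' - 2 y'') ^ i` used in `LowG`, and `kap i j ≠ 0`.
-/

open MvPolynomial

namespace Vale.Agent.P181.ST.H607

/-- The exponent `(a, b, c)`. -/
noncomputable def ee (a b c : ℕ) : Fin 3 →₀ ℕ :=
  Finsupp.single 0 a + Finsupp.single 1 b + Finsupp.single 2 c

lemma ee0 (a b c : ℕ) : ee a b c 0 = a := by
  simp [ee]

lemma ee1 (a b c : ℕ) : ee a b c 1 = b := by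
  simp [ee]

lemma ee2 (a b c : ℕ) : ee a b c 2 = c := by
  simp [ee]

/-- `y + y' - 2 y''`. -/
noncomputable def lC : MvPolynomial (Fin 3) ℂ := X 0 + X 1 - C 2 * X 2

/-- `y - y'`. -/
noncomputable def lA : MvPolynomial (Fin 3) ℂ := X 0 - X 1

lemma c0 (p : MvPolynomial (Fin 3) ℂ) (a b c : ℕ) :
    coeff (ee (a + 1) b c) (p * X 0) = coeff (ee a b c) p := by
  have h : ee (a + 1) b c = ee a b c + Finsupp.single 0 1 := by
    unfold ee; rw [Finsupp.single_add]; abel
  rw [h, coeff_mul_X]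

lemma c0' (p : MvPolynomial (Fin 3) ℂ) (b c : ℕ) :
    coeff (ee 0 b c) (p * X 0) = 0 := by
  rw [coeff_mul_X', if_neg]
  rw [Finsupp.mem_support_iff, ee0]
  exact fun h => h rfl

lemma c1 (p : MvPolynomial (Fin 3) ℂ) (a b c : ℕ) :
    coeff (ee a (b + 1) c) (p * X 1) = coeff (ee a b c) p := by
  have h : ee a (b + 1) c = ee a b c + Finsupp.single 1 1 := by
    unfold ee; rw [Finsupp.single_add]; abel
  rw [h, coeff_mul_X]

lemma c1' (p : MvPolynomial (Fin 3) ℂ) (a c : ℕ) :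
    coeff (ee a 0 c) (p * X 1) = 0 := by
  rw [coeff_mul_X', if_neg]
  rw [Finsupp.mem_support_iff, ee1]
  exact fun h => h rfl

lemma c2 (p : MvPolynomial (Fin 3) ℂ) (a b c : ℕ) :
    coeff (ee a b (c + 1)) (p * X 2) = coeff (ee a b c) p := by
  have h : ee a b (c + 1) = ee a b c + Finsupp.single 2 1 := by
    unfold ee; rw [Finsupp.single_add]; abel
  rw [h, coeff_mul_X]

lemma c2' (p : MvPolynomial (Fin 3) ℂ) (a b : ℕ) :
    coeff (ee a b 0) (p * X 2) = 0 := by
  rw [coeff_mul_X', if_neg]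
  rw [Finsupp.mem_support_iff, ee2]
  exact fun h => h rfl

lemma mul_lC (p : MvPolynomial (Fin 3) ℂ) (e : Fin 3 →₀ ℕ) :
    coeff e (p * lC) = coeff e (p * X 0) + coeff e (p * X 1) - 2 * coeff e (p * X 2) := by
  have h : p * lC = p * X 0 + p * X 1 - C 2 * (p * X 2) := by
    unfold lC; ring
  rw [h, coeff_sub, coeff_add, coeff_C_mul]

/-- The coefficients of the powers of `y + y' - 2 y''`. -/
lemma coeff_lC (n : ℕ) : ∀ a b c : ℕ, a + b + c = n →
    (a.factorial : ℂ) * b.factorial * c.factorial * coeff (ee a b c) (lC ^ n) =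
      n.factorial * (-2) ^ c := by
  induction n with
  | zero =>
    intro a b c h
    obtain ⟨rfl, rfl, rfl⟩ : a = 0 ∧ b = 0 ∧ c = 0 := by omega
    have h0 : ee 0 0 0 = 0 := by simp [ee]
    rw [h0, pow_zero, coeff_zero_one]
    simp
  | succ n ih =>
    intro a b c h
    rw [pow_succ, mul_lC]
    have e0 : (a.factorial : ℂ) * b.factorial * c.factorial * coeff (ee a b c) (lC ^ n * X 0) =
        a * (n.factorial * (-2) ^ c) := by
      rcases a with _ | a
      · rw [c0']; simp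
      · rw [c0, ← ih a b c (by omega), Nat.factorial_succ]; push_cast; ring
    have e1 : (a.factorial : ℂ) * b.factorial * c.factorial * coeff (ee a b c) (lC ^ n * X 1) =
        b * (n.factorial * (-2) ^ c) := by
      rcases b with _ | b
      · rw [c1']; simp
      · rw [c1, ← ih a b c (by omega), Nat.factorial_succ]; push_cast; ring
    have e2 : (a.factorial : ℂ) * b.factorial * c.factorial *
        (2 * coeff (ee a b c) (lC ^ n * X 2)) = - (c * (n.factorial * (-2) ^ c)) := by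
      rcases c with _ | c
      · rw [c2']; simp
      · rw [c2]
        have h1 := ih a b c (by omega)
        have h2 : (a.factorial : ℂ) * b.factorial * ((c + 1).factorial : ℕ) *
            (2 * coeff (ee a b c) (lC ^ n)) = 2 * (c + 1) *
            ((a.factorial : ℂ) * b.factorial * c.factorial * coeff (ee a b c) (lC ^ n)) := by
          rw [Nat.factorial_succ]; push_cast; ring
        rw [h2, h1]; push_cast; ring
    have h3 : ((n + 1).factorial : ℂ) = (a + b + c) * n.factorial := by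
      rw [Nat.factorial_succ, ← h]; push_cast; ring
    rw [h3, mul_sub, mul_add, e0, e1, e2]
    ring

lemma coeff_lC_00 (i : ℕ) : coeff (ee 0 0 i) (lC ^ i) = (-2) ^ i := by
  have h := coeff_lC i 0 0 i (by omega)
  have h1 : (i.factorial : ℂ) ≠ 0 := Nat.cast_ne_zero.2 (Nat.factorial_ne_zero i)
  apply mul_left_cancel₀ h1
  rw [← h]
  simp

lemma coeff_lC_01 (i : ℕ) : coeff (ee i 0 1) (lC ^ (i + 1)) = -2 * (i + 1) := by
  have h := coeff_lC (i + 1) i 0 1 (by omega)
  have h1 : (i.factorial : ℂ) ≠ 0 := Nat.cast_ne_zero.2 (Nat.factorial_ne_zero i)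
  have hf : ((i + 1).factorial : ℂ) = (i + 1) * i.factorial := by
    rw [Nat.factorial_succ]; push_cast; ring
  apply mul_left_cancel₀ h1
  rw [hf] at h
  simp only [Nat.factorial_zero, Nat.factorial_one, Nat.cast_one, mul_one, one_mul, pow_one] at h
  rw [h]; ring

lemma coeff_lC_10 (i : ℕ) : coeff (ee 0 i 1) (lC ^ (i + 1)) = -2 * (i + 1) := by
  have h := coeff_lC (i + 1) 0 i 1 (by omega)
  have h1 : (i.factorial : ℂ) ≠ 0 := Nat.cast_ne_zero.2 (Nat.factorial_ne_zero i)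
  have hf : ((i + 1).factorial : ℂ) = (i + 1) * i.factorial := by
    rw [Nat.factorial_succ]; push_cast; ring
  apply mul_left_cancel₀ h1
  rw [hf] at h
  simp only [Nat.factorial_zero, Nat.factorial_one, Nat.cast_one, mul_one, one_mul, pow_one] at h
  rw [h]; ring

lemma coeff_lC_11 (i : ℕ) : coeff (ee i 1 1) (lC ^ (i + 2)) = -2 * (i + 1) * (i + 2) := by
  have h := coeff_lC (i + 2) i 1 1 (by omega)
  have h1 : (i.factorial : ℂ) ≠ 0 := Nat.cast_ne_zero.2 (Nat.factorial_ne_zero i)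
  have hf : ((i + 2).factorial : ℂ) = (i + 2) * ((i + 1) * i.factorial) := by
    rw [Nat.factorial_succ, Nat.factorial_succ]; push_cast; ring
  apply mul_left_cancel₀ h1
  rw [hf] at h
  simp only [Nat.factorial_zero, Nat.factorial_one, Nat.cast_one, mul_one, one_mul, pow_one] at h
  rw [h]; ring

lemma coeff_lC_11' (i : ℕ) : coeff (ee 1 i 1) (lC ^ (i + 2)) = -2 * (i + 1) * (i + 2) := by
  have h := coeff_lC (i + 2) 1 i 1 (by omega)
  have h1 : (i.factorial : ℂ) ≠ 0 := Nat.cast_ne_zero.2 (Nat.factorial_ne_zero i)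
  have hf : ((i + 2).factorial : ℂ) = (i + 2) * ((i + 1) * i.factorial) := by
    rw [Nat.factorial_succ, Nat.factorial_succ]; push_cast; ring
  apply mul_left_cancel₀ h1
  rw [hf] at h
  simp only [Nat.factorial_zero, Nat.factorial_one, Nat.cast_one, mul_one, one_mul, pow_one] at h
  rw [h]; ring

lemma lA_sq (p : MvPolynomial (Fin 3) ℂ) (e : Fin 3 →₀ ℕ) :
    coeff e (lA ^ 2 * p) = coeff e (p * X 0 * X 0) - 2 * coeff e (p * X 0 * X 1) +
      coeff e (p * X 1 * X 1) := by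
  have h : lA ^ 2 * p = p * X 0 * X 0 - C 2 * (p * X 0 * X 1) + p * X 1 * X 1 := by
    unfold lA
    have h2 : (C 2 : MvPolynomial (Fin 3) ℂ) = 2 := map_ofNat C 2
    rw [h2]; ring
  rw [h, coeff_add, coeff_sub, coeff_C_mul]

/-- `y''` is the big column. -/
theorem tri2 (i : ℕ) : coeff (ee 1 1 i) (lA ^ 2 * lC ^ i) = -2 * (-2) ^ i := by
  rw [lA_sq, c0, c0', c1, c0, coeff_lC_00, c1, c1']
  ring

/-- `y` is the big column. -/
theorem tri0 (i : ℕ) : coeff (ee i 1 1) (lA ^ 2 * lC ^ i) = (4 * i - 2 * i * (i - 1) : ℂ) := by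
  rw [lA_sq]
  have h3 : coeff (ee i 1 1) (lC ^ i * X 1 * X 1 : MvPolynomial (Fin 3) ℂ) = 0 := by rw [c1, c1']
  rw [h3]
  rcases i with _ | _ | i
  · rw [c0', c1, c0']; simp
  · rw [zero_add, c0, c0', c1, c0, coeff_lC_01 0]; push_cast; ring
  · rw [c0, c0, c1, c0, coeff_lC_11, coeff_lC_01 (i + 1)]; push_cast; ring

/-- `y'` is the big column. -/
theorem tri1 (i : ℕ) : coeff (ee 1 i 1) (lA ^ 2 * lC ^ i) = (4 * i - 2 * i * (i - 1) : ℂ) := by
  rw [lA_sq]
  have h3 : coeff (ee 1 i 1) (lC ^ i * X 0 * X 0 : MvPolynomial (Fin 3) ℂ) = 0 := by rw [c0, c0']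
  rw [h3]
  rcases i with _ | _ | i
  · rw [c1', c1']; simp
  · rw [zero_add, c1, c0, c1, c1', coeff_lC_10 0]; push_cast; ring
  · rw [c1, c0, c1, c1, coeff_lC_10 (i + 1), coeff_lC_11']; push_cast; ring

/-- The constant of one triple. -/
noncomputable def kap (i j : ℕ) : ℂ :=
  2 * (4 * i - 2 * i * (i - 1)) + -2 * (-2) ^ i * (-2) ^ j

lemma pow_gt (i : ℕ) : 4 * (i + 4) * (i + 1) + 8 ≤ 2 ^ (i + 5) := by
  induction i with
  | zero => norm_num
  | succ i ih =>
    have h1 : 2 ^ (i + 1 + 5) = 2 * 2 ^ (i + 5) := by rw [← pow_succ']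
    rw [h1]
    nlinarith

/-- `kap` does not vanish on the labels of `LowG`. -/
theorem kap_ne (i j : ℕ) (h : (1 ≤ i ∧ 3 ≤ i + j) ∨ (i = 0 ∧ 2 ≤ j)) : kap i j ≠ 0 := by
  have hk : kap i j = (((4 * i * (3 - i) + (-2) ^ (i + j + 1) : ℤ)) : ℂ) := by
    unfold kap
    push_cast
    rw [pow_succ, pow_add]
    ring
  rw [hk, Int.cast_ne_zero]
  intro h0
  rcases Nat.lt_or_ge i 4 with hi | hi
  · have hj : ∀ k : ℕ, ((-2 : ℤ)) ^ k = 2 ^ k ∨ ((-2 : ℤ)) ^ k = -2 ^ k := by
      intro k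
      rcases Nat.even_or_odd k with hk | hk
      · left; exact hk.neg_pow 2
      · right; exact hk.neg_pow 2
    have h3 : (2 : ℤ) ^ 4 ≤ 2 ^ (i + j + 1) ∨ (i = 0 ∧ 2 ≤ j) := by
      rcases h with h | h
      · left; exact pow_le_pow_right₀ (by norm_num) (by omega)
      · right; exact h
    rcases h3 with h3 | ⟨rfl, h3⟩
    · have h5 : 0 ≤ 4 * (i : ℤ) * (3 - i) ∧ 4 * (i : ℤ) * (3 - i) ≤ 8 := by
        interval_cases i <;> norm_num
      have h6 : (16 : ℤ) ≤ 2 ^ (i + j + 1) := by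
        calc (16 : ℤ) = 2 ^ 4 := by norm_num
          _ ≤ _ := h3
      rcases hj (i + j + 1) with h4 | h4
      · rw [h4] at h0; linarith [h5.1]
      · rw [h4] at h0; linarith [h5.2]
    · simp at h0
  · obtain ⟨k, rfl⟩ : ∃ k, i = k + 4 := ⟨i - 4, by omega⟩
    have h1 := pow_gt k
    have h2 : (2 : ℤ) ^ (k + 5) ≤ 2 ^ (k + 4 + j + 1) :=
      pow_le_pow_right₀ (by norm_num) (by omega)
    have h1' : 4 * ((k : ℤ) + 4) * (k + 1) + 8 ≤ 2 ^ (k + 5) := by exact_mod_cast h1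
    have h5 : ((-2 : ℤ)) ^ (k + 4 + j + 1) = 4 * ((k : ℤ) + 4) * (k + 1) := by
      push_cast at h0
      linarith
    have h6 : |((-2 : ℤ)) ^ (k + 4 + j + 1)| = 2 ^ (k + 4 + j + 1) := by
      rw [abs_pow]; norm_num
    have h7 : |((-2 : ℤ)) ^ (k + 4 + j + 1)| = 4 * ((k : ℤ) + 4) * (k + 1) := by
      rw [h5, abs_of_nonneg (by positivity)]
    rw [h6] at h7
    linarith

end Vale.Agent.P181.ST.H607
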