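import Vale.Agent.P181.DH.H674.Th

set_option autoImplicit false

/-!
# P181, ST, T2: the letter map `Psi`
-/

open MvPolynomial

namespace Vale.Agent.P181.ST.H607

open Vale.Agent.P181.DH.H674 (Th cont col Th_monomial)

/-- The value of a letter: `e_0 ↦ T`, the other letters of degree at most one `↦ 0`. -/
noncomputable def th (m : ℕ) (y : Fin (m + 1) → ℕ) :
    Polynomial (MvPolynomial (Fin (m + 1) → ℕ) ℂ) :=
  if y = Pi.single 0 1 then Polynomial.X
  else if ∑ i, y i ≤ 1 then 0 else Polynomial.C (X y)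

/-- The letter map. -/
noncomputable def Psi (m : ℕ) : MvPolynomial (Fin (m + 1) → ℕ) ℂ →ₐ[ℂ]
    Polynomial (MvPolynomial (Fin (m + 1) → ℕ) ℂ) := aeval (th m)

lemma Psi_X (m : ℕ) (y : Fin (m + 1) → ℕ) : Psi m (X y) = th m y := aeval_X _ _

lemma th_e0 (m : ℕ) : th m (Pi.single 0 1) = Polynomial.X := if_pos rfl

lemma th_small {m : ℕ} {y : Fin (m + 1) → ℕ} (h : y ≠ Pi.single 0 1) (h1 : ∑ i, y i ≤ 1) :
    th m y = 0 := by
  rw [th, if_neg h, if_pos h1]

lemma th_big {m : ℕ} {y : Fin (m + 1) → ℕ} (h1 : 2 ≤ ∑ i, y i) :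
    th m y = Polynomial.C (X y) := by
  rw [th, if_neg, if_neg (by omega)]
  rintro rfl
  rw [Finset.sum_pi_single'] at h1
  simp at h1

/-- The value on a monomial. -/
lemma Psi_Th_monomial {m : ℕ} {σ : Type} [Fintype σ] (v : Fin (m + 1) × σ →₀ ℕ) (r : ℂ) :
    Psi m (Th (m + 1) σ (monomial v r)) = Polynomial.C (C r) * ∏ c, th m (col v c) := by
  rw [Th_monomial, Psi, aeval_monomial, cont]
  congr 1
  rw [← Finsupp.prod_finsetSum_index (fun a => pow_zero _) (fun a b₁ b₂ => pow_add _ _ _)]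
  refine Finset.prod_congr rfl fun c _ => ?_
  exact (Finsupp.prod_single_index (h := fun a k => th m a ^ k) (pow_zero _)).trans (pow_one _)

end Vale.Agent.P181.ST.H607
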