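import Vale.Agent.P181.ST.H775.Mem
import Vale.Agent.P181.ST.H607.Psi
import Vale.Agent.P181.ST.H607.Tri
import Vale.Agent.P181.ST.H613.Ops
import Vale.Agent.P181.DH.H674.Star

set_option autoImplicit false

/-!
# P181, ST [T2e]: the end of `LowG`
-/

open MvPolynomial

namespace Vale.Agent.P181.ST.H607

open Vale.Agent.P181.T4 (HW)
open Vale.Agent.P181.SZ (TI tl mem_TI)
open Vale.Agent.P181.SZR5 (ren)
open Vale.Agent.P181.DH.H674 (Th cont col Th_monomial Th_ren Th_mul Th_inj Ad star star_mem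
  one_mem map_at pinj cont_apply ren_ren)
open Vale.Agent.P181.ST.H775 (Cols FV Ad_FV)

/-- The big columns. -/
noncomputable def hat {m c : ℕ} (lab : Fin c → ℕ × ℕ) (v : MvPolynomial (Fin m × Fin c) ℂ) :
    MvPolynomial (Fin (m + 1) × Fin c) ℂ :=
  (∏ q, X (0, q) ^ (lab q).1) * rename (fun p : Fin m × Fin c => (p.1.succ, p.2)) v

/-- **[T2f]** -/
def TopStmt : Prop := ∀ (m c g1 g2 : ℕ) (ga : Fin g1 → ℂ) (gb : Fin g2 → ℂ)
  (lab : Fin c → ℕ × ℕ) (nu : Fin m → ℕ) (v : MvPolynomial (Fin m × Fin c) ℂ),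
  v ∈ GP m (Fin c) lab nu → ∑ i, nu i ≤ g1 → (∀ q, 2 ≤ (lab q).1 + (lab q).2) →
  (Psi m (Th (m + 1) (Cols c g1 g2) (FV ga gb (∑ i, nu i) lab v))).natDegree ≤
    g1 + g2 + 2 * c ∧
  (Psi m (Th (m + 1) (Cols c g1 g2) (FV ga gb (∑ i, nu i) lab v))).coeff (g1 + g2 + 2 * c) =
    C ((g1.factorial : ℂ) * (∏ p, ga p) * ((g2.factorial : ℂ) * ∏ p, gb p) *
      ∏ q, kap (lab q).1 (lab q).2) * Th (m + 1) (Fin c) (hat lab v)

/-- Coefficients with sum zero. -/
lemma exists_ga (g : ℕ) (hg : 2 ≤ g) : ∃ ga : Fin g → ℂ, ∑ p, ga p = 0 ∧ ∀ p, ga p ≠ 0 := by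
  obtain ⟨k, rfl⟩ : ∃ k, g = k + 1 := ⟨g - 1, by omega⟩
  refine ⟨Fin.cases (-(k : ℂ)) fun _ => 1, ?_, fun p => ?_⟩
  · rw [Fin.sum_univ_succ]
    simp
  · refine Fin.cases ?_ (fun _ => ?_) p
    · simp only [Fin.cases_zero]
      rw [neg_ne_zero, Nat.cast_ne_zero]
      omega
    · simp only [Fin.cases_succ]
      exact one_ne_zero

/-- Symmetrisation. -/
noncomputable def SL {m N : ℕ} {σ : Type} (e : σ ≃ Fin N) :
    MvPolynomial (Fin m × σ) ℂ →ₗ[ℂ] MvPolynomial (Fin m × Fin N) ℂ :=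
  ∑ s : Equiv.Perm (Fin N), (ren m (e.trans s)).toLinearMap

lemma SL_apply {m N : ℕ} {σ : Type} (e : σ ≃ Fin N) (F : MvPolynomial (Fin m × σ) ℂ) :
    SL e F = ∑ s : Equiv.Perm (Fin N), ren m (e.trans s) F := by
  unfold SL
  rw [LinearMap.sum_apply]
  rfl

lemma SL_mem {m N a : ℕ} {σ : Type} [Fintype σ] (e : σ ≃ Fin N) {mu : Fin m → ℕ}
    {F : MvPolynomial (Fin m × σ) ℂ} (hF : Ad m σ a mu F) : SL e F ∈ TI N a m mu := by
  have h := fun s : Equiv.Perm (Fin N) => hF.ren (e.trans s)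
  rw [SL_apply, mem_TI]
  refine ⟨Submodule.sum_mem _ fun s _ => (h s).1, fun e' => ?_, fun v hv => ?_, fun i => ?_⟩
  · change ren m e' _ = _
    rw [map_sum]
    refine Fintype.sum_equiv (Equiv.mulLeft e') _ _ fun s => ?_
    rw [ren_ren]
    rfl
  · rw [coeff_sum] at hv
    obtain ⟨s, _, hs⟩ := Finset.exists_ne_zero_of_sum_ne_zero hv
    exact (h s).2.1 v hs
  · have h1 : ∀ j, pderiv (i, j) (∑ s : Equiv.Perm (Fin N), ren m (e.trans s) F) =
        ∑ s : Equiv.Perm (Fin N), pderiv (i, j) (ren m (e.trans s) F) := fun j => map_sum _ _ _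
    rw [Finset.sum_congr rfl fun j _ => h1 j, Finset.sum_comm]
    exact Finset.sum_eq_zero fun s _ => (h s).2.2 i

lemma Th_SL {m N : ℕ} {σ : Type} [Fintype σ] (e : σ ≃ Fin N) (F : MvPolynomial (Fin m × σ) ℂ) :
    Th m (Fin N) (SL e F) = (N.factorial : ℂ) • Th m σ F := by
  rw [SL_apply, map_sum, Finset.sum_congr rfl fun s _ => Th_ren _ _, Finset.sum_const,
    Finset.card_univ, Fintype.card_perm, Fintype.card_fin, ← Nat.cast_smul_eq_nsmul ℂ]

/-- One more point. -/
noncomputable def UP (m n : ℕ) :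
    MvPolynomial (Fin m × Fin n) ℂ →ₗ[ℂ] MvPolynomial (Fin m × Fin (n + 1)) ℂ :=
  (SL (finSumFinEquiv : Fin n ⊕ Fin 1 ≃ Fin (n + 1))) ∘ₗ (ren m Sum.inl).toLinearMap

lemma UP_eq {m n : ℕ} (f : MvPolynomial (Fin m × Fin n) ℂ) :
    UP m n f = star f (1 : MvPolynomial (Fin m × Fin 1) ℂ) := by
  change SL _ (ren m Sum.inl f) = _
  rw [SL_apply]
  unfold DH.H674.star
  rw [map_one, mul_one]

lemma UP_mem {m n a : ℕ} {mu : Fin m → ℕ} {f : MvPolynomial (Fin m × Fin n) ℂ}
    (hf : f ∈ TI n a m mu) : UP m n f ∈ TI (n + 1) a m mu := by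
  rw [UP_eq]
  have h := star_mem hf (one_mem a 1 m)
  rwa [add_zero] at h

lemma Th_UP {m n : ℕ} (f : MvPolynomial (Fin m × Fin n) ℂ) :
    Th m (Fin (n + 1)) (UP m n f) = ((n + 1).factorial : ℂ) • (Th m (Fin n) f * X 0) := by
  rw [UP_eq, DH.H674.Th_star, DH.H674.Th_one, pow_one]

/-- The exponents of `hat`. -/
lemma hat_support {m c : ℕ} {lab : Fin c → ℕ × ℕ} {nu : Fin m → ℕ}
    {v : MvPolynomial (Fin m × Fin c) ℂ} (hv : v ∈ GP m (Fin c) lab nu)
    {w : Fin (m + 1) × Fin c →₀ ℕ} (hw : coeff w (hat lab v) ≠ 0) (q : Fin c) :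
    (w (0, q), ∑ k : Fin m, w (k.succ, q)) = lab q := by
  classical
  have e1 : (∏ q, (X (0, q) : MvPolynomial (Fin (m + 1) × Fin c) ℂ) ^ (lab q).1) =
      monomial (∑ q, Finsupp.single ((0 : Fin (m + 1)), q) (lab q).1) 1 := by
    rw [monomial_sum_one]
    exact Finset.prod_congr rfl fun q _ => X_pow_eq_monomial
  rw [hat, e1, coeff_monomial_mul'] at hw
  split_ifs at hw with hle
  · rw [one_mul] at hw
    obtain ⟨u, hu, hu'⟩ := coeff_rename_ne_zero _ _ _ hw
    have h0 : w = ∑ q, Finsupp.single ((0 : Fin (m + 1)), q) (lab q).1 +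
        u.mapDomain (fun p : Fin m × Fin c => (p.1.succ, p.2)) := by
      rw [hu, add_tsub_cancel_of_le hle]
    have hinj : Function.Injective (fun p : Fin m × Fin c => ((p.1.succ, p.2) : Fin (m + 1) × Fin c)) := by
      rintro ⟨a, b⟩ ⟨a', b'⟩ h
      simp only [Prod.mk.injEq, Fin.succ_inj] at h
      exact Prod.ext h.1 h.2
    have h1 : ∀ k : Fin m, w (k.succ, q) = u (k, q) := by
      intro k
      rw [h0, Finsupp.add_apply, Finsupp.finsetSum_apply,
        Finset.sum_eq_zero fun q' _ => Finsupp.single_eq_of_ne (by simp [Fin.succ_ne_zero]),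
        zero_add]
      exact Finsupp.mapDomain_apply hinj u (k, q)
    have h2 : w (0, q) = (lab q).1 := by
      rw [h0, Finsupp.add_apply, Finsupp.finsetSum_apply, Finset.sum_eq_single q,
        Finsupp.single_eq_same, Finsupp.mapDomain_of_notMem_range, add_zero]
      · rintro ⟨p, hp⟩
        have := congrArg Prod.fst hp
        exact absurd this (Fin.succ_ne_zero _)
      · intro q' _ hq'
        exact Finsupp.single_eq_of_ne (by simp [Ne.symm hq'])
      · exact fun h => absurd (Finset.mem_univ _) h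
    rw [h2, Finset.sum_congr rfl fun k _ => h1 k, (mem_GP.1 hv).2.1 u hu' q]
  · exact absurd rfl hw

/-- The label of a letter. -/
def lb {m : ℕ} (y : Fin (m + 1) → ℕ) : ℕ × ℕ := (y 0, ∑ k : Fin m, y k.succ)

lemma toMultiset_cont {m : ℕ} {σ : Type} [Fintype σ] (w : Fin m × σ →₀ ℕ) :
    Finsupp.toMultiset (cont w) = Finset.univ.val.map (col w) := by
  rw [cont, map_sum]
  have h : ∀ c : σ, Finsupp.toMultiset (Finsupp.single (col w c) 1) = {col w c} := fun c => by
    rw [Finsupp.toMultiset_single, one_smul]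
  rw [Finset.sum_congr rfl fun c _ => h c]
  have h1 := Multiset.sum_map_singleton (Finset.univ.val.map (col w))
  rw [Multiset.map_map] at h1
  exact h1

lemma labels_cont {m : ℕ} {σ τ : Type} [Fintype σ] [Fintype τ] {w : Fin (m + 1) × σ →₀ ℕ}
    {w' : Fin (m + 1) × τ →₀ ℕ} (h : cont w = cont w') :
    Finset.univ.val.map (fun c : σ => lb (col w c)) =
      Finset.univ.val.map fun c : τ => lb (col w' c) := by
  have h1 := congrArg (fun F => (Finsupp.toMultiset F).map lb) h
  simp only [toMultiset_cont, Multiset.map_map] at h1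
  exact h1

/-- The invariance of `hat`. -/
lemma hat_inv {m c : ℕ} {lab : Fin c → ℕ × ℕ} {nu : Fin m → ℕ}
    {v : MvPolynomial (Fin m × Fin c) ℂ} (hv : v ∈ GP m (Fin c) lab nu) (e : Equiv.Perm (Fin c))
    (he : ∀ q, lab (e q) = lab q) : ren (m + 1) e (hat lab v) = hat lab v := by
  unfold hat
  rw [map_mul, map_prod]
  congr 1
  · refine Fintype.prod_equiv e _ _ fun q => ?_
    rw [map_pow, SZR5.ren_X, he]
  · have h1 := (mem_GP.1 hv).2.2 e he
    conv_rhs => rw [← h1]
    unfold SZR5.ren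
    rw [rename_rename, rename_rename]
    rfl

/-- The coefficient of the letters of `hat`. -/
lemma coeff_Th_hat {m c : ℕ} {lab : Fin c → ℕ × ℕ} {nu : Fin m → ℕ}
    {v : MvPolynomial (Fin m × Fin c) ℂ} (hv : v ∈ GP m (Fin c) lab nu)
    {w : Fin (m + 1) × Fin c →₀ ℕ} (hw : coeff w (hat lab v) ≠ 0) :
    coeff (cont w) (Th (m + 1) (Fin c) (hat lab v)) ≠ 0 := by
  classical
  have h1 : coeff (cont w) (Th (m + 1) (Fin c) (hat lab v)) =
      ∑ u ∈ (hat lab v).support, if cont u = cont w then coeff u (hat lab v) else 0 := by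
    conv_lhs => rw [← support_sum_monomial_coeff (hat lab v)]
    rw [map_sum, coeff_sum]
    refine Finset.sum_congr rfl fun u _ => ?_
    rw [Th_monomial, coeff_monomial]
  have h0 : ∀ u ∈ (hat lab v).support, cont u = cont w →
      coeff u (hat lab v) = coeff w (hat lab v) := by
    intro u hu huw
    have hu' := mem_support_iff.1 hu
    have hc : ∀ y : Fin (m + 1) → ℕ, Fintype.card {q : Fin c // col u q = y} =
        Fintype.card {q : Fin c // col w q = y} := by
      intro y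
      have h1 := congrArg (fun F => F y) huw
      simp only [cont_apply] at h1
      rw [Fintype.card_subtype, Fintype.card_subtype]
      convert h1
    let e : Equiv.Perm (Fin c) := Equiv.ofFiberEquiv (f := col u) (g := col w)
      fun y => Fintype.equivOfCardEq (hc y)
    have he : ∀ q, col w (e q) = col u q := fun q => Equiv.ofFiberEquiv_map _ q
    have hl : ∀ q, lab (e q) = lab q := by
      intro q
      rw [← hat_support hv hw (e q), ← hat_support hv hu' q]
      have h3 := congrArg lb (he q)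
      exact h3
    have h2 : u.mapDomain (fun p : Fin (m + 1) × Fin c => (p.1, e p.2)) = w := by
      ext ⟨i, q⟩
      obtain ⟨q', rfl⟩ := e.surjective q
      rw [map_at e.injective]
      exact (congrFun (he q') i).symm
    calc coeff u (hat lab v) = coeff (u.mapDomain (fun p : Fin (m + 1) × Fin c => (p.1, e p.2)))
          (rename (fun p : Fin (m + 1) × Fin c => (p.1, e p.2)) (hat lab v)) :=
          (coeff_rename_mapDomain _ (pinj e.injective) _ _).symm
      _ = coeff w (hat lab v) := by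
        rw [h2]
        exact congrArg (coeff w) (hat_inv hv e hl)
  have h2 : ∑ u ∈ (hat lab v).support, (if cont u = cont w then coeff u (hat lab v) else 0) =
      (((hat lab v).support.filter fun u => cont u = cont w).card : ℂ) * coeff w (hat lab v) := by
    rw [← Finset.sum_filter, Finset.sum_congr rfl fun u hu =>
      h0 u (Finset.mem_filter.1 hu).1 (Finset.mem_filter.1 hu).2, Finset.sum_const, nsmul_eq_mul]
  rw [h1, h2]
  apply mul_ne_zero _ hw
  rw [Nat.cast_ne_zero]
  apply Finset.card_ne_zero_of_mem (a := w)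
  rw [Finset.mem_filter, mem_support_iff]
  exact ⟨hw, rfl⟩

/-- Other labels do not contribute. -/
lemma coeff_Th_hat_zero {m c c' : ℕ} {lab : Fin c → ℕ × ℕ} {nu : Fin m → ℕ}
    {v : MvPolynomial (Fin m × Fin c) ℂ} (hv : v ∈ GP m (Fin c) lab nu)
    {lab' : Fin c' → ℕ × ℕ} {w : Fin (m + 1) × Fin c' →₀ ℕ}
    (hw : ∀ q, lb (col w q) = lab' q)
    (hne : Finset.univ.val.map lab ≠ Finset.univ.val.map lab') :
    coeff (cont w) (Th (m + 1) (Fin c) (hat lab v)) = 0 := by
  classical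
  conv_lhs => rw [← support_sum_monomial_coeff (hat lab v)]
  rw [map_sum, coeff_sum]
  refine Finset.sum_eq_zero fun u hu => ?_
  rw [Th_monomial, coeff_monomial, if_neg]
  intro h
  apply hne
  have h1 := labels_cont h
  have h2 : (fun q => lb (col u q)) = lab := funext fun q =>
    hat_support hv (mem_support_iff.1 hu) q
  have h3 : (fun q => lb (col w q)) = lab' := funext hw
  rw [h2, h3] at h1
  exact h1

lemma hat_ne {m c : ℕ} (lab : Fin c → ℕ × ℕ) {v : MvPolynomial (Fin m × Fin c) ℂ}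
    (hv : v ≠ 0) : hat lab v ≠ 0 := by
  unfold hat
  apply mul_ne_zero
  · exact Finset.prod_ne_zero_iff.2 fun q _ => pow_ne_zero _ (X_ne_zero _)
  · intro h
    apply hv
    have hinj : Function.Injective (fun p : Fin m × Fin c =>
        ((p.1.succ, p.2) : Fin (m + 1) × Fin c)) := by
      rintro ⟨a, b⟩ ⟨a', b'⟩ h
      simp only [Prod.mk.injEq, Fin.succ_inj] at h
      exact Prod.ext h.1 h.2
    exact rename_injective _ hinj (by rw [h, map_zero])

/-- The map for one type. -/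
lemma fact (top : TopStmt) {a n m : ℕ} {mu : Fin (m + 1) → ℕ} {P : Multiset (ℕ × ℕ)}
    (hn : n + 1 ≤ 2 * a) (hD : ∑ i, tl mu i ≤ a)
    (h1 : ∀ x ∈ P, ((1 ≤ x.1 ∧ 3 ≤ x.1 + x.2) ∨ (x.1 = 0 ∧ 2 ≤ x.2)) ∧ x.1 + x.2 + 2 ≤ a)
    (h2 : 3 * Multiset.card P + ∑ i, tl mu i + 4 ≤ n + 1)
    (h3 : (P.map Prod.fst).sum + (n + 1) = mu 0 + Multiset.card P) :
    ∃ (F : GP m (Fin P.toList.length) (fun q => P.toList.get q) (tl mu) →ₗ[ℂ]
        TI (n + 1) a (m + 1) mu) (K : ℂ), K ≠ 0 ∧ ∀ v,
      (Psi m (Th (m + 1) (Fin (n + 1)) (F v).1)).natDegree ≤ n + 1 - Multiset.card P ∧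
      (Psi m (Th (m + 1) (Fin (n + 1)) (F v).1)).coeff (n + 1 - Multiset.card P) =
        C K * Th (m + 1) (Fin P.toList.length) (hat (fun q => P.toList.get q) v.1) := by
  classical
  have hc : P.toList.length = Multiset.card P := Multiset.length_toList P
  set c := P.toList.length with hcdef
  obtain ⟨g1, g2, e1, e2, e3, e4, e5, e6⟩ : ∃ g1 g2 : ℕ, 2 ≤ g1 ∧ 2 ≤ g2 ∧ g1 ≤ a ∧ g2 ≤ a ∧
      ∑ i, tl mu i ≤ g1 ∧ g1 + g2 + 3 * c = n + 1 := by
    refine ⟨min a (n + 1 - 3 * c - 2), n + 1 - 3 * c - min a (n + 1 - 3 * c - 2), ?_, ?_, ?_,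
      ?_, ?_, ?_⟩ <;> omega
  obtain ⟨ga, ha1, ha2⟩ := exists_ga g1 e1
  obtain ⟨gb, hb1, hb2⟩ := exists_ga g2 e2
  have hcard : Fintype.card (Cols c g1 g2) = Fintype.card (Fin (n + 1)) := by
    simp only [Cols, Fintype.card_sum, Fintype.card_prod, Fintype.card_fin]
    omega
  let e : Cols c g1 g2 ≃ Fin (n + 1) := Fintype.equivOfCardEq hcard
  let lab : Fin c → ℕ × ℕ := fun q => P.toList.get q
  have hlab : ∀ q, lab q ∈ P := fun q => Multiset.mem_toList.1 (List.get_mem _ _)
  have hsum : ∑ q, (lab q).1 = (P.map Prod.fst).sum := by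
    conv_rhs => rw [← H613.map_get P, Multiset.map_map]
    rfl
  have hmem : ∀ v ∈ GP m (Fin c) lab (tl mu),
      SL e (FV ga gb (∑ i, tl mu i) lab v) ∈ TI (n + 1) a (m + 1) mu := fun v hv =>
    SL_mem e (Ad_FV ha1 hb1 hv e5 e3 e4 (fun q => (h1 _ (hlab q)).2) (by
      rw [hsum]; omega))
  let F : GP m (Fin c) lab (tl mu) →ₗ[ℂ] TI (n + 1) a (m + 1) mu :=
    { toFun := fun v => ⟨SL e (FV ga gb (∑ i, tl mu i) lab v.1), hmem v.1 v.2⟩
      map_add' := fun v w => Subtype.ext (by
        change SL e (FV ga gb (∑ i, tl mu i) lab (v.1 + w.1)) = _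
        rw [map_add, map_add]
        rfl)
      map_smul' := fun r v => Subtype.ext (by
        change SL e (FV ga gb (∑ i, tl mu i) lab (r • v.1)) = _
        rw [map_smul, map_smul]
        rfl) }
  refine ⟨F, ((n + 1).factorial : ℂ) * (((g1.factorial : ℂ) * (∏ p, ga p) *
    ((g2.factorial : ℂ) * ∏ p, gb p)) * ∏ q, kap (lab q).1 (lab q).2), ?_, fun v => ?_⟩
  · have hf : ∀ k : ℕ, (k.factorial : ℂ) ≠ 0 := fun k =>
      Nat.cast_ne_zero.2 (Nat.factorial_ne_zero k)
    refine mul_ne_zero (hf _) (mul_ne_zero (mul_ne_zero (mul_ne_zero (hf _) ?_)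
      (mul_ne_zero (hf _) ?_)) ?_)
    · exact Finset.prod_ne_zero_iff.2 fun p _ => ha2 p
    · exact Finset.prod_ne_zero_iff.2 fun p _ => hb2 p
    · exact Finset.prod_ne_zero_iff.2 fun q _ => kap_ne _ _ (h1 _ (hlab q)).1
  · obtain ⟨t1, t2⟩ := top m c g1 g2 ga gb lab (tl mu) v.1 v.2 e5 (fun q => by
      rcases (h1 _ (hlab q)).1 with h | h <;> omega)
    have hdeg : n + 1 - Multiset.card P = g1 + g2 + 2 * c := by omega
    have hQ : Psi m (Th (m + 1) (Fin (n + 1)) (F v).1) = ((n + 1).factorial : ℂ) •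
        Psi m (Th (m + 1) (Cols c g1 g2) (FV ga gb (∑ i, tl mu i) lab v.1)) := by
      change Psi m (Th (m + 1) (Fin (n + 1)) (SL e (FV ga gb (∑ i, tl mu i) lab v.1))) = _
      rw [Th_SL, map_smul]
    rw [hQ, hdeg]
    refine ⟨(Polynomial.natDegree_smul_le _ _).trans t1, ?_⟩
    rw [Polynomial.coeff_smul, t2, MvPolynomial.smul_eq_C_mul, ← mul_assoc, ← C_mul]

/-- **(T2e)** -/
theorem lowG_of (top : TopStmt) : LowG := by
  classical
  intro a n m mu L hn hD hL
  have hfact : ∀ P : L, _ := fun P => fact top hn hD (hL P.1 P.2).1 (hL P.1 P.2).2.1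
    (hL P.1 P.2).2.2.1
  choose F K hK hF using hfact
  let U : TI n a (m + 1) mu →ₗ[ℂ] TI (n + 1) a (m + 1) mu :=
    { toFun := fun f => ⟨UP (m + 1) n f.1, UP_mem f.2⟩
      map_add' := fun f g => Subtype.ext (map_add _ _ _)
      map_smul' := fun r f => Subtype.ext (map_smul _ _ _) }
  let Φ : (TI n a (m + 1) mu × (∀ P : L, GP m (Fin P.1.toList.length)
      (fun q => P.1.toList.get q) (tl mu))) →ₗ[ℂ] TI (n + 1) a (m + 1) mu :=
    LinearMap.coprod U (∑ P : L, (F P) ∘ₗ LinearMap.proj P)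
  have hinj : Function.Injective Φ := by
    rw [← LinearMap.ker_eq_bot, LinearMap.ker_eq_bot']
    rintro ⟨f, v⟩ h
    have hΦ : U f + ∑ P : L, F P (v P) = 0 := by
      have h1 : Φ (f, v) = U f + (∑ P : L, (F P) ∘ₗ LinearMap.proj P) v :=
        LinearMap.coprod_apply _ _ _
      rw [h1, LinearMap.sum_apply] at h
      exact h
    let R : TI (n + 1) a (m + 1) mu → Polynomial (MvPolynomial (Fin (m + 1) → ℕ) ℂ) :=
      fun x => Psi m (Th (m + 1) (Fin (n + 1)) x.1)
    have hR0 : R 0 = 0 := by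
      change Psi m (Th (m + 1) (Fin (n + 1)) 0) = 0
      rw [map_zero, map_zero]
    have hRU : R (U f) = 0 := by
      change Psi m (Th (m + 1) (Fin (n + 1)) (UP (m + 1) n f.1)) = 0
      rw [Th_UP, map_smul, map_mul, Psi_X, th_small, mul_zero, smul_zero]
      · intro h0
        have := congrFun h0 0
        simp at this
      · simp
    have hRadd : ∀ x y, R (x + y) = R x + R y := fun x y => by
      change Psi m (Th (m + 1) (Fin (n + 1)) (x.1 + y.1)) = _
      rw [map_add, map_add]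
    have hsum : ∑ P : L, R (F P (v P)) = 0 := by
      let R' : TI (n + 1) a (m + 1) mu →+ Polynomial (MvPolynomial (Fin (m + 1) → ℕ) ℂ) :=
        { toFun := R, map_zero' := hR0, map_add' := hRadd }
      have h1 := congrArg R' hΦ
      rw [map_add, map_sum, map_zero] at h1
      have h2 : R' (U f) = 0 := hRU
      rw [h2, zero_add] at h1
      exact h1
    have hv : ∀ k : ℕ, ∀ P : L, Multiset.card P.1 = k → v P = 0 := by
      intro k
      induction k using Nat.strong_induction_on with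
      | _ k ih =>
        intro P hP
        by_contra h0
        have h1 : (v P).1 ≠ 0 := fun h => h0 (Subtype.ext h)
        obtain ⟨w, hw⟩ := ne_zero_iff.1 (hat_ne (fun q => P.1.toList.get q) h1)
        have h2 := congrArg (fun p => coeff (cont w) (Polynomial.coeff p (n + 1 - k))) hsum
        simp only [Polynomial.finset_sum_coeff, coeff_sum, Polynomial.coeff_zero,
          coeff_zero] at h2
        rw [Finset.sum_eq_single P] at h2
        · have h3 := (hF P (v P)).2
          rw [hP] at h3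
          have h4 : (R (F P (v P))).coeff (n + 1 - k) = _ := h3
          rw [h4, coeff_C_mul] at h2
          exact mul_ne_zero (hK P) (coeff_Th_hat (v P).2 hw) h2
        · intro P' _ hne
          rcases Nat.lt_trichotomy (Multiset.card P'.1) k with h5 | h5 | h5
          · rw [ih _ h5 P' rfl, map_zero, hR0, Polynomial.coeff_zero, coeff_zero]
          · have h3 := (hF P' (v P')).2
            rw [h5] at h3
            have h4 : (R (F P' (v P'))).coeff (n + 1 - k) = _ := h3
            rw [h4, coeff_C_mul, coeff_Th_hat_zero (v P').2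
              (lab' := fun q => P.1.toList.get q) (fun q => hat_support (v P).2 hw q), mul_zero]
            rw [H613.map_get, H613.map_get]
            exact fun h => hne (Subtype.ext h)
          · rw [Polynomial.coeff_eq_zero_of_natDegree_lt, coeff_zero]
            have h6 := (hL P'.1 P'.2).2.1
            exact lt_of_le_of_lt (hF P' (v P')).1 (by omega)
        · exact fun h => absurd (Finset.mem_univ _) h
    have hv' : v = 0 := funext fun P => hv _ P rfl
    subst hv'
    have hU : U f = 0 := by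
      rw [← hΦ]
      simp
    have h7 : Th (m + 1) (Fin (n + 1)) (UP (m + 1) n f.1) = 0 := by
      have h8 : UP (m + 1) n f.1 = 0 := congrArg Subtype.val hU
      rw [h8, map_zero]
    rw [Th_UP, smul_eq_zero, mul_eq_zero] at h7
    have h9 : f.1 = 0 := by
      rcases h7 with h7 | h7 | h7
      · exact absurd h7 (Nat.cast_ne_zero.2 (Nat.factorial_ne_zero _))
      · exact Th_inj (mem_TI.1 f.2).2.1 h7
      · exact absurd h7 (X_ne_zero _)
    exact Prod.ext (Subtype.ext h9) rfl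
  have hfin := LinearMap.finrank_le_finrank_of_injective hinj
  rw [Module.finrank_prod, Module.finrank_pi_fintype] at hfin
  have s1 : ∑ P : L, Module.finrank ℂ (GP m (Fin P.1.toList.length)
      (fun q => P.1.toList.get q) (tl mu)) = ∑ P ∈ L, G m (tl mu) P :=
    Finset.sum_coe_sort L (fun P => G m (tl mu) P)
  rw [s1] at hfin
  exact hfin

end Vale.Agent.P181.ST.H607
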