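import Vale.Agent.P181.ST.H607.TriP

set_option autoImplicit false

/-!
# P181, ST, T2b: the letters of one triple, `tri`
-/

open MvPolynomial

namespace Vale.Agent.P181.ST.H607

open Vale.Agent.P181.DH.H674 (Th cont col Th_monomial)
open Vale.Agent.P181.ST.H775 (lf kA kC TP)

/-- The exponent with the letter `(i, u)` in the column `t` and `e_0` elsewhere. -/
noncomputable def WW {m : ℕ} (i : ℕ) (u : Fin m → ℕ) (t : Fin 3) : Fin (m + 1) × Fin 3 →₀ ℕ :=
  Finsupp.equivFunOnFinite.symm fun p =>
    if p.2 = t then (Fin.cons i u : Fin (m + 1) → ℕ) p.1 else if p.1 = 0 then 1 else 0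

lemma WW_apply {m : ℕ} (i : ℕ) (u : Fin m → ℕ) (t : Fin 3) (p : Fin (m + 1) × Fin 3) :
    WW i u t p = if p.2 = t then (Fin.cons i u : Fin (m + 1) → ℕ) p.1
      else if p.1 = 0 then 1 else 0 := rfl

lemma col_WW_ne {m : ℕ} (i : ℕ) (u : Fin m → ℕ) {t x : Fin 3} (h : x ≠ t) :
    col (WW i u t) x = Pi.single 0 1 := by
  funext r
  change WW i u t (r, x) = _
  rw [WW_apply, if_neg h, Pi.single_apply]

lemma col_WW_self {m : ℕ} (i : ℕ) (u : Fin m → ℕ) (t : Fin 3) :
    col (WW i u t) t = Fin.cons i u := by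
  funext r
  change WW i u t (r, t) = _
  rw [WW_apply, if_pos rfl]

lemma sum_cons {m : ℕ} (i : ℕ) (u : Fin m → ℕ) :
    ∑ r, (Fin.cons i u : Fin (m + 1) → ℕ) r = i + ∑ k, u k := by
  rw [Fin.sum_univ_succ]
  simp only [Fin.cons_zero, Fin.cons_succ]

lemma sum_e0' (m : ℕ) : ∑ r, (Pi.single 0 1 : Fin (m + 1) → ℕ) r = 1 := by
  rw [Finset.sum_pi_single']
  simp

/-- The monomials with two columns `e_0`. -/
lemma eq_WW {m i : ℕ} {u : Fin m → ℕ} {w : Fin (m + 1) × Fin 3 →₀ ℕ}
    (hw : coeff w (TP m i u) ≠ 0) {t : Fin 3}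
    (h : ∀ x, x ≠ t → col w x = Pi.single 0 1) : w = WW i u t := by
  have h0 : ∀ x, x ≠ t → w (0, x) = 1 := by
    intro x hx
    have h1 := congrFun (h x hx) 0
    rw [Pi.single_eq_same] at h1
    exact h1
  have hs : ∀ (k : Fin m) x, x ≠ t → w (k.succ, x) = 0 := by
    intro k x hx
    have h1 := congrFun (h x hx) k.succ
    rw [Pi.single_eq_of_ne (Fin.succ_ne_zero k)] at h1
    exact h1
  rw [coeff_TP i u t w h0 hs] at hw
  split_ifs at hw with h3
  · ext ⟨r, x⟩
    rw [WW_apply]
    by_cases hx : x = t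
    · subst hx
      rw [if_pos rfl]
      refine Fin.cases ?_ (fun k => ?_) r
      · exact h3.1
      · exact h3.2 k
    · rw [if_neg hx]
      revert hx
      refine Fin.cases (fun hx => ?_) (fun k hx => ?_) r
      · rw [if_pos rfl]; exact h0 x hx
      · rw [if_neg (Fin.succ_ne_zero k)]; exact hs k x hx
  · exact absurd rfl hw

lemma natDegree_th_le (m : ℕ) (y : Fin (m + 1) → ℕ) : (th m y).natDegree ≤ 1 := by
  unfold th
  split_ifs
  · exact Polynomial.natDegree_X_le
  · simp
  · simp

lemma natDegree_th_zero {m : ℕ} {y : Fin (m + 1) → ℕ} (h : y ≠ Pi.single 0 1) :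
    (th m y).natDegree = 0 := by
  unfold th
  rw [if_neg h]
  split_ifs
  · exact Polynomial.natDegree_zero
  · exact Polynomial.natDegree_C _

lemma exists_two {m : ℕ} (y : Fin 3 → Fin (m + 1) → ℕ)
    (h : ¬ (∏ t, th m (y t)).natDegree ≤ 1) :
    ∃ t, ∀ x, x ≠ t → y x = Pi.single 0 1 := by
  by_contra hc
  apply h
  push Not at hc
  rw [Fin.prod_univ_three]
  have e := natDegree_th_le m
  have z : ∀ t, y t ≠ Pi.single 0 1 → (th m (y t)).natDegree = 0 := fun t ht =>
    natDegree_th_zero ht
  have h3 : (th m (y 0) * th m (y 1) * th m (y 2)).natDegree ≤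
      (th m (y 0)).natDegree + (th m (y 1)).natDegree + (th m (y 2)).natDegree :=
    Polynomial.natDegree_mul_le.trans (Nat.add_le_add_right Polynomial.natDegree_mul_le _)
  refine h3.trans ?_
  have e0 := e (y 0)
  have e1 := e (y 1)
  have e2 := e (y 2)
  by_cases a0 : y 0 = Pi.single 0 1
  · by_cases a1 : y 1 = Pi.single 0 1
    · obtain ⟨x, hx, hx'⟩ := hc 2
      exfalso
      fin_cases x
      · exact hx' a0
      · exact hx' a1
      · exact hx rfl
    · by_cases a2 : y 2 = Pi.single 0 1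
      · obtain ⟨x, hx, hx'⟩ := hc 1
        exfalso
        fin_cases x
        · exact hx' a0
        · exact hx rfl
        · exact hx' a2
      · have b1 := z 1 a1
        have b2 := z 2 a2
        omega
  · by_cases a1 : y 1 = Pi.single 0 1
    · by_cases a2 : y 2 = Pi.single 0 1
      · obtain ⟨x, hx, hx'⟩ := hc 0
        exfalso
        fin_cases x
        · exact hx rfl
        · exact hx' a1
        · exact hx' a2
      · have b1 := z 0 a0
        have b2 := z 2 a2
        omega
    · have b1 := z 0 a0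
      have b2 := z 1 a1
      omega

lemma prod_WW {m i : ℕ} {u : Fin m → ℕ} (h2 : 2 ≤ i + ∑ k, u k) (t : Fin 3) :
    ∏ x, th m (col (WW i u t) x) =
      Polynomial.C (X (Fin.cons i u : Fin (m + 1) → ℕ)) * Polynomial.X ^ 2 := by
  have hb : th m (Fin.cons i u) = Polynomial.C (X (Fin.cons i u : Fin (m + 1) → ℕ)) :=
    th_big (by rw [sum_cons]; exact h2)
  rw [Finset.prod_eq_mul_prod_sdiff_singleton_of_mem (Finset.mem_univ t), col_WW_self, hb,
    Finset.prod_congr rfl (g := fun _ => Polynomial.X), Finset.prod_const]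
  · congr 2
    rw [Finset.card_sdiff_of_subset (Finset.subset_univ _)]
    simp
  · intro x hx
    rw [col_WW_ne i u (fun h => by simp [h] at hx), th_e0]

/-- **(T2b)** -/
theorem tri (m i : ℕ) (u : Fin m → ℕ) (h2 : 2 ≤ i + ∑ k, u k) :
    (Psi m (Th (m + 1) (Fin 3)
      (lf kA 0 ^ 2 * lf kC 0 ^ i * ∏ k, lf kC k.succ ^ u k))).natDegree ≤ 2 ∧
    (Psi m (Th (m + 1) (Fin 3)
      (lf kA 0 ^ 2 * lf kC 0 ^ i * ∏ k, lf kC k.succ ^ u k))).coeff 2 =
      C (kap i (∑ k, u k)) * X (Fin.cons i u : Fin (m + 1) → ℕ) := by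
  classical
  change (Psi m (Th (m + 1) (Fin 3) (TP m i u))).natDegree ≤ 2 ∧
    (Psi m (Th (m + 1) (Fin 3) (TP m i u))).coeff 2 = _
  have hne : ∀ t : Fin 3, ¬ ∀ x, col (WW i u t) x = Pi.single 0 1 := by
    intro t h
    have h1 := congrArg (fun y : Fin (m + 1) → ℕ => ∑ r, y r) (h t)
    simp only [col_WW_self, sum_cons, sum_e0'] at h1
    omega
  have hinj : Function.Injective (WW i u) := by
    intro t t' h
    by_contra hne'
    apply hne t
    intro x
    by_cases hx : x = t
    · rw [h]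
      exact col_WW_ne i u (by rw [hx]; exact hne')
    · exact col_WW_ne i u hx
  have hsum : Psi m (Th (m + 1) (Fin 3) (TP m i u)) = ∑ w ∈ (TP m i u).support,
      Polynomial.C (C (coeff w (TP m i u))) * ∏ t, th m (col w t) := by
    conv_lhs => rw [(TP m i u).as_sum]
    rw [map_sum, map_sum]
    exact Finset.sum_congr rfl fun w _ => Psi_Th_monomial w _
  rw [hsum]
  constructor
  · refine Polynomial.natDegree_sum_le_of_forall_le _ _ fun w hw => ?_
    refine (Polynomial.natDegree_C_mul_le _ _).trans ?_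
    by_cases h1 : (∏ t, th m (col w t)).natDegree ≤ 1
    · exact h1.trans (by norm_num)
    · obtain ⟨t, ht⟩ := exists_two (col w) h1
      rw [eq_WW (mem_support_iff.1 hw) ht, prod_WW h2]
      exact Polynomial.natDegree_C_mul_X_pow_le _ _
  · rw [Polynomial.finsetSum_coeff]
    have hF : ∀ w, (Polynomial.C (C (coeff w (TP m i u))) * ∏ t, th m (col w t)).coeff 2 =
        C (coeff w (TP m i u)) * (∏ t, th m (col w t)).coeff 2 := fun w =>
      Polynomial.coeff_C_mul _
    rw [Finset.sum_congr rfl fun w _ => hF w]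
    have s1 : ∑ w ∈ (TP m i u).support, C (coeff w (TP m i u)) *
        (∏ t, th m (col w t)).coeff 2 = ∑ w ∈ Finset.univ.image (WW i u),
        C (coeff w (TP m i u)) * (∏ t, th m (col w t)).coeff 2 := by
      have a1 : ∑ w ∈ (TP m i u).support, C (coeff w (TP m i u)) *
          (∏ t, th m (col w t)).coeff 2 = ∑ w ∈ (TP m i u).support ∪ Finset.univ.image (WW i u),
          C (coeff w (TP m i u)) * (∏ t, th m (col w t)).coeff 2 := by
        refine Finset.sum_subset Finset.subset_union_left fun w _ hw => ?_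
        rw [notMem_support_iff.1 hw, C_0, zero_mul]
      have a2 : ∑ w ∈ Finset.univ.image (WW i u), C (coeff w (TP m i u)) *
          (∏ t, th m (col w t)).coeff 2 = ∑ w ∈ (TP m i u).support ∪ Finset.univ.image (WW i u),
          C (coeff w (TP m i u)) * (∏ t, th m (col w t)).coeff 2 := by
        refine Finset.sum_subset Finset.subset_union_right fun w _ hw => ?_
        by_cases h0 : coeff w (TP m i u) = 0
        · rw [h0, C_0, zero_mul]
        · rw [Polynomial.coeff_eq_zero_of_natDegree_lt, mul_zero]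
          by_contra h1
          obtain ⟨t, ht⟩ := exists_two (col w) (fun h => h1 (by omega))
          apply hw
          rw [eq_WW h0 ht]
          exact Finset.mem_image_of_mem _ (Finset.mem_univ _)
      rw [a1, a2]
    rw [s1, Finset.sum_image fun a _ b _ h => hinj h]
    have s2 : ∀ t : Fin 3, C (coeff (WW i u t) (TP m i u)) *
        (∏ x, th m (col (WW i u t) x)).coeff 2 =
        C (kt t i (∑ k, u k)) * X (Fin.cons i u : Fin (m + 1) → ℕ) := by
      intro t
      rw [prod_WW h2, Polynomial.coeff_C_mul, Polynomial.coeff_X_pow, if_pos rfl, mul_one,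
        coeff_TP i u t, if_pos]
      · refine ⟨?_, fun k => ?_⟩
        · rw [WW_apply, if_pos rfl]; rfl
        · rw [WW_apply, if_pos rfl]; rfl
      · intro x hx
        rw [WW_apply, if_neg hx, if_pos rfl]
      · intro k x hx
        rw [WW_apply, if_neg hx, if_neg (Fin.succ_ne_zero k)]
    rw [Finset.sum_congr rfl fun t _ => s2 t, ← Finset.sum_mul, ← map_sum, sum_kt]

end Vale.Agent.P181.ST.H607
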