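import Vale.Agent.P181.ST.H775.Phi
import Vale.Agent.P181.ST.H607.Psi
import Vale.Agent.P181.ST.H607.Tri

set_option autoImplicit false

/-!
# P181, ST, T2b: the letters of one triple
-/

open MvPolynomial

namespace Vale.Agent.P181.ST.H607

open Vale.Agent.P181.SZR5 (ren)
open Vale.Agent.P181.DH.H674 (Th cont col Th_monomial)
open Vale.Agent.P181.ST.H775 (lf kA kC TP e0 ph Phi PT PT_sum)

open scoped Classical in
/-- Killing variables. -/
noncomputable def kil {α : Type} (S : α → Prop) : MvPolynomial α ℂ →ₐ[ℂ] MvPolynomial α ℂ :=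
  aeval fun p => if S p then 0 else X p

lemma kil_X_bad {α : Type} {S : α → Prop} {p : α} (h : S p) : kil S (X p) = 0 := by
  classical
  rw [kil, aeval_X, if_pos h]

lemma kil_X_good {α : Type} {S : α → Prop} {p : α} (h : ¬ S p) : kil S (X p) = X p := by
  classical
  rw [kil, aeval_X, if_neg h]

/-- The coefficients without killed variables do not change. -/
lemma coeff_kil {α : Type} (S : α → Prop) (f : MvPolynomial α ℂ) (w : α →₀ ℕ)
    (hw : ∀ p, S p → w p = 0) : coeff w (kil S f) = coeff w f := by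
  classical
  conv_lhs => rw [f.as_sum]
  conv_rhs => rw [f.as_sum]
  rw [map_sum, coeff_sum, coeff_sum]
  refine Finset.sum_congr rfl fun u _ => ?_
  by_cases h : ∀ p, S p → u p = 0
  · have h1 : kil S (monomial u (coeff u f)) = monomial u (coeff u f) := by
      rw [kil, aeval_monomial, monomial_eq]
      congr 1
      refine Finset.prod_congr rfl fun p hp => ?_
      have h2 : ¬ S p := fun h3 => (Finsupp.mem_support_iff.1 hp) (h p h3)
      simp only [if_neg h2]
    rw [h1]
  · push Not at h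
    obtain ⟨p, hp, hup⟩ := h
    have h1 : kil S (monomial u (coeff u f)) = 0 := by
      rw [kil, aeval_monomial, Finsupp.prod,
        Finset.prod_eq_zero (Finsupp.mem_support_iff.2 hup), mul_zero]
      simp only [if_pos hp]
      exact zero_pow hup
    rw [h1, coeff_zero, coeff_monomial, if_neg]
    rintro rfl
    exact hup (hw p hp)

/-- The exponent `i` at `t`, one elsewhere. -/
noncomputable def et (t : Fin 3) (i : ℕ) : Fin 3 →₀ ℕ :=
  Finsupp.equivFunOnFinite.symm fun x => if x = t then i else 1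

lemma et_apply (t : Fin 3) (i : ℕ) (x : Fin 3) : et t i x = if x = t then i else 1 := rfl

/-- The constant of a triple. -/
noncomputable def kt (t : Fin 3) (i j : ℕ) : ℂ := coeff (et t i) (lA ^ 2 * lC ^ i) * kC t ^ j

lemma sum_kt (i j : ℕ) : ∑ t, kt t i j = kap i j := by
  have h0 : et 0 i = ee i 1 1 := by
    ext x
    fin_cases x
    · exact (ee0 i 1 1).symm
    · exact (ee1 i 1 1).symm
    · exact (ee2 i 1 1).symm
  have h1 : et 1 i = ee 1 i 1 := by
    ext x
    fin_cases x
    · exact (ee0 1 i 1).symm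
    · exact (ee1 1 i 1).symm
    · exact (ee2 1 i 1).symm
  have h2 : et 2 i = ee 1 1 i := by
    ext x
    fin_cases x
    · exact (ee0 1 1 i).symm
    · exact (ee1 1 1 i).symm
    · exact (ee2 1 1 i).symm
  have k0 : kC 0 = 1 := rfl
  have k1 : kC 1 = 1 := rfl
  have k2 : kC 2 = -2 := rfl
  rw [Fin.sum_univ_three, kt, kt, kt, h0, h1, h2, tri0, tri1, tri2, k0, k1, k2, kap]
  ring

lemma hom_lA : (lA : MvPolynomial (Fin 3) ℂ).IsHomogeneous 1 :=
  (isHomogeneous_X _ _).sub (isHomogeneous_X _ _)

lemma hom_lC : (lC : MvPolynomial (Fin 3) ℂ).IsHomogeneous 1 := by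
  refine ((isHomogeneous_X _ _).add (isHomogeneous_X _ _)).sub ?_
  have h3 := (isHomogeneous_C (Fin 3) (2 : ℂ)).mul (isHomogeneous_X ℂ (2 : Fin 3))
  rwa [zero_add] at h3

lemma lf_rename {m : ℕ} (k : Fin 3 → ℂ) (r : Fin m) :
    lf k r = rename (fun t => (r, t)) (∑ t, C (k t) * X t : MvPolynomial (Fin 3) ℂ) := by
  rw [lf, map_sum]
  refine Finset.sum_congr rfl fun t _ => ?_
  rw [map_mul, rename_C, rename_X]

lemma lA_eq : (∑ t, C (kA t) * X t : MvPolynomial (Fin 3) ℂ) = lA := by
  rw [Fin.sum_univ_three, lA]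
  have e0 : kA 0 = 1 := rfl
  have e1 : kA 1 = -1 := rfl
  have e2 : kA 2 = 0 := rfl
  rw [e0, e1, e2, map_neg, C_1, C_0]
  ring

lemma lC_eq : (∑ t, C (kC t) * X t : MvPolynomial (Fin 3) ℂ) = lC := by
  rw [Fin.sum_univ_three, lC]
  have e0 : kC 0 = 1 := rfl
  have e1 : kC 1 = 1 := rfl
  have e2 : kC 2 = -2 := rfl
  rw [e0, e1, e2, map_neg, C_1]
  ring

/-- The tail variables off the column `t`. -/
def Sk {m : ℕ} (t : Fin 3) (p : Fin (m + 1) × Fin 3) : Prop := p.1 ≠ 0 ∧ p.2 ≠ t

lemma kil_lf0 {m : ℕ} (t : Fin 3) (k : Fin 3 → ℂ) :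
    kil (Sk t) (lf k (0 : Fin (m + 1))) = lf k 0 := by
  rw [lf, map_sum]
  refine Finset.sum_congr rfl fun x _ => ?_
  rw [map_mul, kil_X_good (fun h => h.1 rfl)]
  congr 1
  exact aeval_C _ _

lemma kil_lfs {m : ℕ} (t : Fin 3) (k : Fin 3 → ℂ) (r : Fin m) :
    kil (Sk t) (lf k r.succ) = C (k t) * X (r.succ, t) := by
  rw [lf, map_sum, Finset.sum_eq_single t]
  · rw [map_mul, kil_X_good (fun h => h.2 rfl)]
    congr 1
    exact aeval_C _ _
  · intro x _ hx
    rw [map_mul, kil_X_bad ⟨Fin.succ_ne_zero r, hx⟩, mul_zero]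
  · exact fun h => absurd (Finset.mem_univ _) h

lemma kil_TP {m : ℕ} (t : Fin 3) (i : ℕ) (u : Fin m → ℕ) :
    kil (Sk t) (TP m i u) = rename (fun x => ((0 : Fin (m + 1)), x)) (lA ^ 2 * lC ^ i) *
      monomial (∑ k : Fin m, Finsupp.single (k.succ, t) (u k)) (kC t ^ ∑ k, u k) := by
  have h1 : (monomial (∑ k : Fin m, Finsupp.single (k.succ, t) (u k)) (kC t ^ ∑ k, u k) :
      MvPolynomial (Fin (m + 1) × Fin 3) ℂ) = ∏ k, (C (kC t) * X (k.succ, t)) ^ u k := by
    have h2 : (monomial (∑ k : Fin m, Finsupp.single (k.succ, t) (u k)) (kC t ^ ∑ k, u k) :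
        MvPolynomial (Fin (m + 1) × Fin 3) ℂ) = C (kC t ^ ∑ k, u k) *
          monomial (∑ k : Fin m, Finsupp.single (k.succ, t) (u k)) 1 := by
      rw [C_mul_monomial, mul_one]
    rw [h2, monomial_sum_one, ← Finset.prod_pow_eq_pow_sum, map_prod, ← Finset.prod_mul_distrib]
    refine Finset.prod_congr rfl fun k _ => ?_
    rw [mul_pow, map_pow, X_pow_eq_monomial]
  rw [TP, map_mul, map_mul, map_pow, map_pow, map_prod, kil_lf0, kil_lf0, h1, map_mul, map_pow,
    map_pow, lf_rename, lf_rename, lA_eq, lC_eq]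
  congr 1
  refine Finset.prod_congr rfl fun k _ => ?_
  rw [map_pow, kil_lfs]

/-- **The coefficients with two columns `e_0`.** -/
lemma coeff_TP {m : ℕ} (i : ℕ) (u : Fin m → ℕ) (t : Fin 3) (w : Fin (m + 1) × Fin 3 →₀ ℕ)
    (h0 : ∀ x, x ≠ t → w (0, x) = 1) (hs : ∀ (k : Fin m) x, x ≠ t → w (k.succ, x) = 0) :
    coeff w (TP m i u) = if w (0, t) = i ∧ ∀ k : Fin m, w (k.succ, t) = u k then
      kt t i (∑ k, u k) else 0 := by
  classical
  rw [← coeff_kil (Sk t) _ w, kil_TP, coeff_mul_monomial']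
  · set E : Fin (m + 1) × Fin 3 →₀ ℕ := ∑ k : Fin m, Finsupp.single (k.succ, t) (u k) with hE
    have hEs : ∀ (k : Fin m) x, E (k.succ, x) = if x = t then u k else 0 := by
      intro k x
      rw [hE, Finsupp.finsetSum_apply, Finset.sum_eq_single k]
      · rw [Finsupp.single_apply]
        by_cases hx : x = t
        · rw [hx, if_pos rfl, if_pos rfl]
        · rw [if_neg hx, if_neg]
          intro h
          exact hx (Prod.ext_iff.1 h).2.symm
      · intro k' _ hk'
        rw [Finsupp.single_apply, if_neg]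
        intro h
        exact hk' (Fin.succ_injective _ (Prod.ext_iff.1 h).1)
      · exact fun h => absurd (Finset.mem_univ _) h
    have hE0 : ∀ x, E (0, x) = 0 := by
      intro x
      rw [hE, Finsupp.finsetSum_apply]
      refine Finset.sum_eq_zero fun k _ => ?_
      rw [Finsupp.single_apply, if_neg]
      intro h
      exact absurd (Prod.ext_iff.1 h).1 (Fin.succ_ne_zero k)
    have hinj : Function.Injective (fun x : Fin 3 => ((0 : Fin (m + 1)), x)) := fun x y h =>
      (Prod.ext_iff.1 h).2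
    by_cases hu : ∀ k : Fin m, w (k.succ, t) = u k
    · have hle : E ≤ w := by
        rintro ⟨r, x⟩
        refine Fin.cases ?_ (fun k => ?_) r
        · rw [hE0]; exact Nat.zero_le _
        · rw [hEs]
          by_cases hx : x = t
          · rw [if_pos hx, hx, hu]
          · rw [if_neg hx]; exact Nat.zero_le _
      rw [if_pos hle]
      have hw : w - E = (et t (w (0, t))).mapDomain (fun x => ((0 : Fin (m + 1)), x)) := by
        ext ⟨r, x⟩
        rw [Finsupp.tsub_apply]
        revert x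
        refine Fin.cases (fun x => ?_) (fun k x => ?_) r
        · rw [hE0, Nat.sub_zero]
          rw [show ((0 : Fin (m + 1)), x) = (fun x : Fin 3 => ((0 : Fin (m + 1)), x)) x from rfl,
            Finsupp.mapDomain_apply hinj, et_apply]
          by_cases hx : x = t
          · rw [if_pos hx, hx]
          · rw [if_neg hx]; exact h0 x hx
        · rw [Finsupp.mapDomain_of_notMem_range, hEs]
          · by_cases hx : x = t
            · rw [if_pos hx, hx, hu]; exact Nat.sub_self _
            · rw [if_neg hx, hs k x hx, Nat.sub_zero]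
          · rintro ⟨y, hy⟩
            exact absurd (Prod.ext_iff.1 hy).1 (Fin.succ_ne_zero k).symm
      rw [hw, coeff_rename_mapDomain _ hinj]
      by_cases hi : w (0, t) = i
      · rw [if_pos ⟨hi, hu⟩, hi]
        rfl
      · rw [if_neg (fun h => hi h.1)]
        have hh : (lA ^ 2 * lC ^ i : MvPolynomial (Fin 3) ℂ).IsHomogeneous (1 * 2 + 1 * i) :=
          (hom_lA.pow 2).mul (hom_lC.pow i)
        rw [hh.coeff_eq_zero, zero_mul]
        intro h
        apply hi
        have h1 : (et t (w (0, t))).degree = w (0, t) + 2 := by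
          rw [Finsupp.degree_eq_sum, Fin.sum_univ_three, et_apply, et_apply, et_apply]
          fin_cases t <;> simp <;> omega
        rw [h1] at h
        omega
    · have hneg : ¬ (w (0, t) = i ∧ ∀ k : Fin m, w (k.succ, t) = u k) := fun h => hu h.2
      rw [if_neg hneg]
      split_ifs with hle
      · rw [coeff_rename_eq_zero, zero_mul]
        intro v hv
        exfalso
        apply hu
        intro k
        have h1 := DFunLike.congr_fun hv (k.succ, t)
        rw [Finsupp.mapDomain_of_notMem_range, Finsupp.tsub_apply, hEs, if_pos rfl] at h1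
        · have h2 := hle (k.succ, t)
          rw [hEs, if_pos rfl] at h2
          omega
        · rintro ⟨y, hy⟩
          exact absurd (Prod.ext_iff.1 hy).1 (Fin.succ_ne_zero k).symm
      · rfl
  · rintro ⟨r, x⟩ ⟨h1, h2⟩
    obtain ⟨k, rfl⟩ := Fin.exists_succ_eq.2 h1
    exact hs k x h2

end Vale.Agent.P181.ST.H607
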