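import Vale.Agent.P181.ST.H613.Ops
import Vale.Agent.P181.SZR3.Col

set_option autoImplicit false

/-!
# P181, ST [T6]: two boxes
-/

open MvPolynomial

namespace Vale.Agent.P181.ST.H607

open Vale.Agent.P181.T4 (HW rowOp mem_HW)
open Vale.Agent.P181.ST
open Vale.Agent.P181.SZR3 (colD colD_X colD_eq ColH RowH colH_colD rowH_colD rowD rowD_eq
  rowD_colD colD_zero_of_colH)
open Vale.Agent.P181.SZR5b (rc rc_inj rowOp_rename HW_rename col_rename)
open Vale.Agent.P181.ST.H613 (mem_GP' rename_rc trans map_get)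

variable {m : ℕ} {σ τ : Type}

lemma colD_HW [Fintype σ] [DecidableEq σ] (a c : σ) {nu : Fin m → ℕ}
    {f : MvPolynomial (Fin m × σ) ℂ} (hf : f ∈ HW m σ nu) : colD a c f ∈ HW m σ nu := by
  rw [mem_HW] at hf ⊢
  exact ⟨rowH_colD (mu := nu) hf.1, fun s i h => by
    rw [← rowD_eq, rowD_colD, rowD_eq, hf.2 s i h, map_zero]⟩

lemma rename_colD [DecidableEq σ] [DecidableEq τ] {e : σ → τ} (he : Function.Injective e)
    (x y : σ) (g : MvPolynomial (Fin m × σ) ℂ) :
    rename (rc m e) (colD x y g) = colD (e x) (e y) (rename (rc m e) g) := by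
  induction g using MvPolynomial.induction_on with
  | C r =>
    rw [rename_C]
    have h1 : ∀ {ρ : Type} [DecidableEq ρ] (u v : ρ),
        colD u v (C r : MvPolynomial (Fin m × ρ) ℂ) = 0 := fun u v => derivation_C _ _
    rw [h1, h1, map_zero]
  | add p q hp hq => rw [map_add, map_add, map_add, map_add, hp, hq]
  | mul_X p k hp =>
    rw [Derivation.leibniz, _root_.map_mul (rename (rc m e)) p (X k), Derivation.leibniz,
      map_add, rename_X, colD_X, colD_X, ← hp]
    simp only [smul_eq_mul, _root_.map_mul (rename (rc m e)), rename_X]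
    congr 2
    by_cases h : k.2 = y
    · rw [if_pos h, if_pos (by change e k.2 = e y; rw [h]), rename_X]
      rfl
    · rw [if_neg h, map_zero]
      exact (if_neg fun h' => h (he h')).symm

/-- The double polarisation. -/
noncomputable def DD [DecidableEq σ] (a b : σ) (f : MvPolynomial (Fin m × σ) ℂ) :
    MvPolynomial (Fin m × Option σ) ℂ :=
  colD none (some a) (colD none (some b) (rename (rc m some) f))

lemma DD_add [DecidableEq σ] (a b : σ) (f g : MvPolynomial (Fin m × σ) ℂ) :
    DD a b (f + g) = DD a b f + DD a b g := by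
  unfold DD
  rw [map_add, map_add, map_add]

lemma DD_smul [DecidableEq σ] (a b : σ) (c : ℂ) (f : MvPolynomial (Fin m × σ) ℂ) :
    DD a b (c • f) = c • DD a b f := by
  unfold DD
  rw [map_smul, Derivation.map_smul, Derivation.map_smul]

lemma DD_perm [DecidableEq σ] (a b : σ) (f : MvPolynomial (Fin m × σ) ℂ)
    (E : Option σ → Option σ) (hE : Function.Injective E) (e : σ → σ) (h0 : E none = none)
    (h : ∀ j, E (some j) = some (e j)) :
    rename (rc m E) (DD a b f) = DD (e a) (e b) (rename (rc m e) f) := by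
  unfold DD
  rw [rename_colD hE, rename_colD hE, rename_rc, rename_rc, h0, h, h]
  congr 3
  have h1 : E ∘ some = some ∘ e := funext h
  rw [h1]

lemma exists_perm [DecidableEq σ] (E : Equiv.Perm (Option σ)) (h0 : E none = none) :
    ∃ e : Equiv.Perm σ, ∀ j, E (some j) = some (e j) := by
  refine ⟨Equiv.removeNone E, fun j => ?_⟩
  rw [Equiv.removeNone_some E]
  cases h : E (some j) with
  | none => exact absurd (E.injective (h.trans h0.symm)) (by simp)
  | some k => exact ⟨k, rfl⟩

/-- Membership. -/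
lemma DD_mem [Fintype σ] [DecidableEq σ] {lab : σ → ℕ × ℕ} {nu : Fin m → ℕ}
    {f : MvPolynomial (Fin m × σ) ℂ} (hf : f ∈ GP m σ lab nu) (a b : σ)
    (lab' : Option σ → ℕ × ℕ)
    (hdeg : ∀ j, (lab' (some j)).2 + (if a = j then 1 else 0) + (if b = j then 1 else 0) =
      (lab j).2) (h2 : (lab' none).2 = 2) (hu0 : ∀ j, lab' (some j) ≠ lab' none)
    (hua : ∀ j, lab' (some j) = lab' (some a) → j = a)
    (hub : ∀ j, lab' (some j) = lab' (some b) → j = b)
    (hl : ∀ j, j ≠ a → j ≠ b → lab' (some j) = lab j) :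
    DD a b f ∈ GP m (Option σ) lab' nu := by
  rw [mem_GP'] at hf ⊢
  refine ⟨colD_HW _ _ (colD_HW _ _ (HW_rename _ hf.1)), ?_, fun E hE => ?_⟩
  · have c0 : ColH (m := m) (fun o : Option σ => o.elim 0 fun j => (lab j).2)
        (rename (rc m some) f) := by
      refine col_rename (Option.some_injective σ) (fun j => rfl) (fun j hj => ?_) hf.2.1
      cases j with
      | none => rfl
      | some k => exact absurd ⟨k, rfl⟩ hj
    have c1 : ColH (m := m) (fun o : Option σ => o.elim 1 fun j => (lab' (some j)).2 +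
        if a = j then 1 else 0) (colD none (some b) (rename (rc m some) f)) := by
      refine colH_colD c0 fun o => ?_
      cases o with
      | none => simp
      | some j =>
        have := hdeg j
        simp only [Option.elim_some, Option.some.injEq, reduceCtorEq, if_false]
        omega
    have c2 : ColH (m := m) (fun o : Option σ => (lab' o).2)
        (colD none (some a) (colD none (some b) (rename (rc m some) f))) := by
      refine colH_colD c1 fun o => ?_
      cases o with
      | none => simp [h2]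
      | some j =>
        simp only [Option.elim_some, Option.some.injEq, reduceCtorEq, if_false]
        omega
    exact c2
  · have h0 : E none = none := by
      cases h : E none with
      | none => rfl
      | some k =>
        have h3 := hE none
        rw [h] at h3
        exact absurd h3 (hu0 k)
    obtain ⟨e, he⟩ := exists_perm E h0
    have hlab : ∀ j, lab' (some (e j)) = lab' (some j) := fun j => by rw [← he, hE]
    have ha : e a = a := hua _ (hlab a)
    have hb : e b = b := hub _ (hlab b)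
    have h3 : ∀ j, lab (e j) = lab j := by
      intro j
      by_cases hja : j = a
      · rw [hja, ha]
      by_cases hjb : j = b
      · rw [hjb, hb]
      have h4 : e j ≠ a := fun h => hja (e.injective (h.trans ha.symm))
      have h5 : e j ≠ b := fun h => hjb (e.injective (h.trans hb.symm))
      rw [← hl _ h4 h5, ← hl _ hja hjb, hlab]
    rw [DD_perm a b f E E.injective e h0 he, ha, hb, hf.2.2 e h3]

/-- Evaluation of the marker at `e_0`. -/
noncomputable def ev (m : ℕ) (σ : Type) :
    MvPolynomial (Fin (m + 1) × Option σ) ℂ →ₐ[ℂ] MvPolynomial (Fin (m + 1) × σ) ℂ :=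
  aeval fun p => p.2.elim (if p.1 = 0 then 1 else 0) fun j => X (p.1, j)

lemma ev_some (f : MvPolynomial (Fin (m + 1) × σ) ℂ) :
    ev m σ (rename (rc (m + 1) some) f) = f := by
  unfold ev
  rw [aeval_rename]
  have h : (fun p : Fin (m + 1) × Option σ => (p.2.elim (if p.1 = 0 then 1 else 0)
      fun j => X (p.1, j) : MvPolynomial (Fin (m + 1) × σ) ℂ)) ∘ rc (m + 1) some = X := by
    funext p
    rfl
  rw [h, aeval_X_left]
  rfl

lemma ev_colD [Fintype σ] [DecidableEq σ] (a : σ) (g : MvPolynomial (Fin (m + 1) × Option σ) ℂ) :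
    ev m σ (colD none (some a) g) = ev m σ (pderiv (0, some a) g) := by
  rw [colD_eq, map_sum, Finset.sum_eq_single 0]
  · rw [map_mul]
    have h : ev m σ (X (0, none)) = 1 := by
      unfold ev
      rw [aeval_X]
      rfl
    rw [h, one_mul]
  · intro i _ hi
    rw [map_mul]
    have h : ev m σ (X (i, none)) = 0 := by
      unfold ev
      rw [aeval_X]
      exact if_neg hi
    rw [h, zero_mul]
  · exact fun h => absurd (Finset.mem_univ _) h

lemma ev_DD [Fintype σ] [DecidableEq σ] (a b : σ) (f : MvPolynomial (Fin (m + 1) × σ) ℂ) :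
    ev m σ (DD a b f) = pderiv (0, a) (pderiv (0, b) f) := by
  have hinj := rc_inj (n := m + 1) (Option.some_injective σ)
  have hp : ∀ (i : Fin (m + 1)) (c : σ) (g : MvPolynomial (Fin (m + 1) × σ) ℂ),
      pderiv (i, some c) (rename (rc (m + 1) some) g) =
        rename (rc (m + 1) some) (pderiv (i, c) g) := fun i c g => pderiv_rename hinj (i, c) g
  unfold DD
  rw [ev_colD, colD_eq, map_sum, map_sum, Finset.sum_eq_single 0]
  · rw [Derivation.leibniz, pderiv_X_of_ne (by simp), smul_zero, add_zero, smul_eq_mul, hp, hp,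
      map_mul, ev_some]
    have h : ev m σ (X (0, none)) = 1 := by
      unfold ev
      rw [aeval_X]
      rfl
    rw [h, one_mul]
  · intro i _ hi
    rw [Derivation.leibniz, pderiv_X_of_ne (by simp), smul_zero, add_zero, smul_eq_mul,
      map_mul]
    have h : ev m σ (X (i, none)) = 0 := by
      unfold ev
      rw [aeval_X]
      exact if_neg hi
    rw [h, zero_mul]
  · exact fun h => absurd (Finset.mem_univ _) h

/-- Joint injectivity. -/
lemma eq_zero_of_DD [Fintype σ] [DecidableEq σ] {nu : Fin (m + 1) → ℕ}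
    {f : MvPolynomial (Fin (m + 1) × σ) ℂ} (hf : f ∈ HW (m + 1) σ nu) (h2 : 2 ≤ nu 0)
    (h : ∀ a b, DD a b f = 0) : f = 0 := by
  have hpd : ∀ a b, pderiv (0, a) (pderiv (0, b) f) = 0 := fun a b => by
    rw [← ev_DD, h, map_zero]
  by_contra h0
  obtain ⟨v, hv⟩ := ne_zero_iff.1 h0
  have h1 := (mem_HW.1 hf).1 v hv 0
  obtain ⟨b, -, hb⟩ : ∃ b ∈ Finset.univ, v (0, b) ≠ 0 := by
    apply Finset.exists_ne_zero_of_sum_ne_zero
    rw [h1]; omega
  obtain ⟨w, rfl⟩ : ∃ w : Fin (m + 1) × σ →₀ ℕ, v = w + Finsupp.single (0, b) 1 := by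
    refine ⟨v - Finsupp.single (0, b) 1, (tsub_add_cancel_of_le ?_).symm⟩
    rw [Finsupp.single_le_iff]
    omega
  have h3 : ∑ j, w (0, j) + 1 = nu 0 := by
    rw [← h1]
    simp only [Finsupp.add_apply, Finset.sum_add_distrib]
    congr 1
    rw [Finset.sum_eq_single b]
    · rw [Finsupp.single_eq_same]
    · intro j _ hj
      rw [Finsupp.single_eq_of_ne]
      simp [hj]
    · exact fun h => absurd (Finset.mem_univ _) h
  obtain ⟨a, -, ha⟩ : ∃ a ∈ Finset.univ, w (0, a) ≠ 0 := by
    apply Finset.exists_ne_zero_of_sum_ne_zero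
    omega
  obtain ⟨u, rfl⟩ : ∃ u : Fin (m + 1) × σ →₀ ℕ, w = u + Finsupp.single (0, a) 1 := by
    refine ⟨w - Finsupp.single (0, a) 1, (tsub_add_cancel_of_le ?_).symm⟩
    rw [Finsupp.single_le_iff]
    omega
  have h4 := congrArg (coeff u) (hpd a b)
  rw [coeff_pderiv, coeff_pderiv, coeff_zero] at h4
  have h5 : ((u (0, a) : ℂ) + 1) ≠ 0 := Nat.cast_add_one_ne_zero _
  have h6 : (((u + Finsupp.single (0, a) 1 : Fin (m + 1) × σ →₀ ℕ) (0, b) : ℂ) + 1) ≠ 0 :=
    Nat.cast_add_one_ne_zero _
  exact mul_ne_zero (mul_ne_zero hv h6) h5 h4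

/-- The columns of degree too small. -/
lemma DD_zero [Fintype σ] [DecidableEq σ] {lab : σ → ℕ × ℕ} {nu : Fin m → ℕ}
    {f : MvPolynomial (Fin m × σ) ℂ} (hf : f ∈ GP m σ lab nu) (a b : σ)
    (h : (lab b).2 = 0 ∨ (lab a).2 = 0 ∨ (a = b ∧ (lab a).2 = 1)) : DD a b f = 0 := by
  rw [mem_GP'] at hf
  have c0 : ColH (m := m) (fun o : Option σ => o.elim 0 fun j => (lab j).2)
      (rename (rc m some) f) := by
    refine col_rename (Option.some_injective σ) (fun j => rfl) (fun j hj => ?_) hf.2.1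
    cases j with
    | none => rfl
    | some k => exact absurd ⟨k, rfl⟩ hj
  unfold DD
  by_cases hb : (lab b).2 = 0
  · rw [colD_zero_of_colH (c := some b) (d := fun o : Option σ => o.elim 0 fun j => (lab j).2)
      hb c0, map_zero]
  · have c1 : ColH (m := m) (fun o : Option σ => o.elim 1 fun j => (lab j).2 -
        if b = j then 1 else 0) (colD none (some b) (rename (rc m some) f)) := by
      refine colH_colD c0 fun o => ?_
      cases o with
      | none => simp
      | some j =>
        simp only [Option.elim_some, Option.some.injEq, reduceCtorEq, if_false]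
        by_cases hj : b = j
        · subst hj
          simp only [if_true]
          omega
        · simp only [hj, if_false]
          omega
    apply colD_zero_of_colH _ c1
    change (lab a).2 - (if b = a then 1 else 0) = 0
    rcases h with h | h | ⟨rfl, h⟩
    · exact absurd h hb
    · rw [h]; simp
    · rw [h]; simp

lemma univ_option [Fintype σ] (g : Option σ → ℕ × ℕ) :
    Finset.univ.val.map g = g none ::ₘ Finset.univ.val.map fun j => g (some j) := by
  rw [show (Finset.univ : Finset (Option σ)).val =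
    none ::ₘ (Finset.univ : Finset σ).val.map some from rfl, Multiset.map_cons, Multiset.map_map]
  rfl

lemma map_erase [Fintype σ] [DecidableEq σ] (lab : σ → ℕ × ℕ) (a : σ) :
    Finset.univ.val.map lab = lab a ::ₘ (Finset.univ.erase a).val.map lab := by
  rw [← Multiset.map_cons, Finset.erase_val, Multiset.cons_erase (Finset.mem_univ a)]

lemma map_update [Fintype σ] [DecidableEq σ] (lab : σ → ℕ × ℕ) (a : σ) (L : ℕ × ℕ) :
    Finset.univ.val.map (Function.update lab a L) =
      L ::ₘ (Finset.univ.val.map lab).erase (lab a) := by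
  rw [map_erase _ a, map_erase lab a, Multiset.erase_cons_head, Function.update_self]
  congr 1
  refine Multiset.map_congr rfl fun j hj => ?_
  rw [Function.update_of_ne]
  exact (Finset.mem_erase.1 hj).1

/-- A permutation with given values at one or two columns. -/
lemma exists_perm2 [DecidableEq σ] (lab : σ → ℕ × ℕ) {a b c d : σ} (hcd : c ≠ d) (hab : a ≠ b)
    (hc : lab c = lab a) (hd : lab d = lab b) :
    ∃ e : Equiv.Perm σ, e c = a ∧ e d = b ∧ ∀ j, lab (e j) = lab j := by
  have hs : ∀ {x y : σ}, lab x = lab y → ∀ j, lab (Equiv.swap x y j) = lab j := by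
    intro x y hxy j
    by_cases h1 : j = x
    · rw [h1, Equiv.swap_apply_left, hxy]
    by_cases h2 : j = y
    · rw [h2, Equiv.swap_apply_right, hxy]
    rw [Equiv.swap_apply_of_ne_of_ne h1 h2]
  set d' := Equiv.swap c a d with hd'
  have h1 : d' ≠ a := by
    rw [hd']
    intro h
    have h3 : Equiv.swap c a d = Equiv.swap c a c := by rw [h, Equiv.swap_apply_left]
    exact hcd ((Equiv.swap c a).injective h3).symm
  have h2 : lab d' = lab b := by rw [hd', hs hc, hd]
  refine ⟨(Equiv.swap c a).trans (Equiv.swap d' b), ?_, ?_, fun j => ?_⟩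
  · rw [Equiv.trans_apply, Equiv.swap_apply_left, Equiv.swap_apply_of_ne_of_ne h1.symm hab]
  · rw [Equiv.trans_apply, ← hd', Equiv.swap_apply_left]
  · rw [Equiv.trans_apply, hs h2, hs hc]

/-- **(T6)** -/
theorem twoBox : TwoBox := by
  classical
  intro m nu P z f1 f2 f3 hnu H1 H2
  let σ := Fin P.toList.length
  let lab : σ → ℕ × ℕ := fun j => P.toList.get j
  have hlab : Finset.univ.val.map lab = P := map_get P
  have hmem : ∀ j, lab j ∈ P := fun j => Multiset.mem_toList.1 (List.get_mem _ _)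
  -- representatives
  have r1 : ∀ x : {x // x ∈ P.toFinset.filter fun x => 2 ≤ x.2}, ∃ c : σ, lab c = x.1 := by
    rintro ⟨x, hx⟩
    have h := Multiset.mem_toFinset.1 (Finset.mem_filter.1 hx).1
    rw [← hlab, Multiset.mem_map] at h
    obtain ⟨c, -, hc⟩ := h
    exact ⟨c, hc⟩
  have r2 : ∀ p : {p // p ∈ (P.toFinset ×ˢ P.toFinset).filter
      (fun p => p.2 ∈ P.erase p.1 ∧ 1 ≤ p.1.2 ∧ 1 ≤ p.2.2)}, ∃ q : σ × σ, q.1 ≠ q.2 ∧
      lab q.1 = p.1.1 ∧ lab q.2 = p.1.2 := by
    rintro ⟨⟨x, y⟩, hx⟩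
    obtain ⟨h1, h2, -⟩ := Finset.mem_filter.1 hx
    have h := Multiset.mem_toFinset.1 (Finset.mem_product.1 h1).1
    simp only at h h2
    rw [← hlab, Multiset.mem_map] at h
    obtain ⟨c, -, hc⟩ := h
    rw [← hlab, ← hc, map_erase lab c, Multiset.erase_cons_head, Multiset.mem_map] at h2
    obtain ⟨d, hd, hd'⟩ := h2
    have hne : d ≠ c := (Finset.mem_erase.1 (show d ∈ Finset.univ.erase c from hd)).1
    exact ⟨(c, d), fun h => hne h.symm, hc, hd'⟩
  choose c1 hc1 using r1
  choose c2 hc2 using r2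
  let L1 : {x // x ∈ P.toFinset.filter fun x => 2 ≤ x.2} → Option σ → ℕ × ℕ := fun x o =>
    o.elim (z, 2) (Function.update lab (c1 x) (f1 x.1, x.1.2 - 2))
  let L2 : {p // p ∈ (P.toFinset ×ˢ P.toFinset).filter
      (fun p => p.2 ∈ P.erase p.1 ∧ 1 ≤ p.1.2 ∧ 1 ≤ p.2.2)} → Option σ → ℕ × ℕ := fun p o =>
    o.elim (z, 2) (Function.update (Function.update lab (c2 p).1
      (f2 p.1.1 p.1.2, p.1.1.2 - 1)) (c2 p).2 (f3 p.1.1 p.1.2, p.1.2.2 - 1))
  have m1 : ∀ x, ∀ f ∈ GP (m + 1) σ lab nu,
      DD (c1 x) (c1 x) f ∈ GP (m + 1) (Option σ) (L1 x) nu := by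
    rintro ⟨x, hx⟩ f hf
    have hxP := Multiset.mem_toFinset.1 (Finset.mem_filter.1 hx).1
    have hx2 := (Finset.mem_filter.1 hx).2
    obtain ⟨hA, hB⟩ := H1 x hxP hx2
    have hc : lab (c1 ⟨x, hx⟩) = x := hc1 ⟨x, hx⟩
    have hB1 : (z, 2) ≠ (f1 x, x.2 - 2) := fun h => hB (by rw [h]; exact Multiset.mem_cons_self _ _)
    have hB2 : (z, 2) ∉ P := fun h => hB (Multiset.mem_cons_of_mem h)
    have e1 : L1 ⟨x, hx⟩ (some (c1 ⟨x, hx⟩)) = (f1 x, x.2 - 2) := Function.update_self _ _ _
    have e2 : ∀ j, j ≠ c1 ⟨x, hx⟩ → L1 ⟨x, hx⟩ (some j) = lab j := fun j hj =>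
      Function.update_of_ne hj _ _
    have hu : ∀ j, L1 ⟨x, hx⟩ (some j) = L1 ⟨x, hx⟩ (some (c1 ⟨x, hx⟩)) → j = c1 ⟨x, hx⟩ := by
      intro j h
      by_contra hj
      rw [e1, e2 j hj] at h
      exact hA (h ▸ hmem j)
    refine DD_mem hf _ _ _ (fun j => ?_) rfl (fun j => ?_) hu hu (fun j hj _ => e2 j hj)
    · by_cases hj : j = c1 ⟨x, hx⟩
      · subst hj
        rw [e1, hc]
        simp only [if_true]
        omega
      · rw [e2 j hj, if_neg (Ne.symm hj), add_zero, add_zero]
    · by_cases hj : j = c1 ⟨x, hx⟩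
      · subst hj
        rw [e1]
        exact hB1.symm
      · rw [e2 j hj]
        exact fun h => hB2 ((show lab j = (z, 2) from h) ▸ hmem j)
  have m2 : ∀ p, ∀ f ∈ GP (m + 1) σ lab nu,
      DD (c2 p).1 (c2 p).2 f ∈ GP (m + 1) (Option σ) (L2 p) nu := by
    rintro ⟨⟨x, y⟩, hp⟩ f hf
    obtain ⟨h1, h2, h3, h4⟩ := Finset.mem_filter.1 hp
    have hxP := Multiset.mem_toFinset.1 (Finset.mem_product.1 h1).1
    obtain ⟨hA, hB, hC⟩ := H2 x hxP y h2 h3 h4
    obtain ⟨hne, hcx, hcy⟩ := hc2 ⟨⟨x, y⟩, hp⟩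
    set c := (c2 ⟨⟨x, y⟩, hp⟩).1 with hcdef
    set d := (c2 ⟨⟨x, y⟩, hp⟩).2 with hddef
    simp only at hcx hcy h3 h4
    have hB1 : (f3 x y, y.2 - 1) ≠ (f2 x y, x.2 - 1) :=
      fun h => hB (by rw [h]; exact Multiset.mem_cons_self _ _)
    have hB2 : (f3 x y, y.2 - 1) ∉ P := fun h => hB (Multiset.mem_cons_of_mem h)
    have hC1 : (z, 2) ≠ (f2 x y, x.2 - 1) :=
      fun h => hC (by rw [h]; exact Multiset.mem_cons_self _ _)
    have hC2 : (z, 2) ≠ (f3 x y, y.2 - 1) :=
      fun h => hC (Multiset.mem_cons_of_mem (by rw [h]; exact Multiset.mem_cons_self _ _))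
    have hC3 : (z, 2) ∉ P := fun h => hC (Multiset.mem_cons_of_mem (Multiset.mem_cons_of_mem h))
    have e1 : L2 ⟨⟨x, y⟩, hp⟩ (some d) = (f3 x y, y.2 - 1) := Function.update_self _ _ _
    have e2 : L2 ⟨⟨x, y⟩, hp⟩ (some c) = (f2 x y, x.2 - 1) := by
      change Function.update (Function.update lab c _) d _ c = _
      rw [Function.update_of_ne hne, Function.update_self]
    have e3 : ∀ j, j ≠ c → j ≠ d → L2 ⟨⟨x, y⟩, hp⟩ (some j) = lab j := by
      intro j hj hj'
      change Function.update (Function.update lab c _) d _ j = _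
      rw [Function.update_of_ne hj', Function.update_of_ne hj]
    refine DD_mem hf _ _ _ (fun j => ?_) rfl (fun j => ?_) (fun j h => ?_) (fun j h => ?_) e3
    · by_cases hj : j = c
      · subst hj
        rw [e2, hcx, if_pos rfl, if_neg hne.symm]
        simp only
        omega
      by_cases hj' : j = d
      · subst hj'
        rw [e1, hcy, if_pos rfl, if_neg hne]
        simp only
        omega
      · rw [e3 j hj hj', if_neg (Ne.symm hj), if_neg (Ne.symm hj'), add_zero, add_zero]
    · by_cases hj : j = c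
      · subst hj
        rw [e2]
        exact hC1.symm
      by_cases hj' : j = d
      · subst hj'
        rw [e1]
        exact hC2.symm
      · rw [e3 j hj hj']
        exact fun h => hC3 ((show lab j = (z, 2) from h) ▸ hmem j)
    · by_contra hj
      rw [e2] at h
      by_cases hj' : j = d
      · subst hj'
        rw [e1] at h
        exact hB1 h
      · rw [e3 j hj hj'] at h
        exact hA (h ▸ hmem j)
    · by_contra hj
      rw [e1] at h
      by_cases hj' : j = c
      · subst hj'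
        rw [e2] at h
        exact hB1 h.symm
      · rw [e3 j hj' hj] at h
        exact hB2 (h ▸ hmem j)
  -- the map
  let Φ : GP (m + 1) σ lab nu →ₗ[ℂ]
      (∀ x, GP (m + 1) (Option σ) (L1 x) nu) × (∀ p, GP (m + 1) (Option σ) (L2 p) nu) :=
    { toFun := fun f => (fun x => ⟨DD (c1 x) (c1 x) f.1, m1 x f.1 f.2⟩,
        fun p => ⟨DD (c2 p).1 (c2 p).2 f.1, m2 p f.1 f.2⟩)
      map_add' := fun f g => Prod.ext (funext fun x => Subtype.ext (DD_add _ _ _ _))
        (funext fun p => Subtype.ext (DD_add _ _ _ _))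
      map_smul' := fun c f => Prod.ext (funext fun x => Subtype.ext (DD_smul _ _ _ _))
        (funext fun p => Subtype.ext (DD_smul _ _ _ _)) }
  have hinj : Function.Injective Φ := by
    rw [← LinearMap.ker_eq_bot, LinearMap.ker_eq_bot']
    rintro ⟨f, hf⟩ h
    apply Subtype.ext
    refine eq_zero_of_DD (mem_GP'.1 hf).1 hnu fun a b => ?_
    have z1 : ∀ x, DD (c1 x) (c1 x) f = 0 := fun x =>
      congrArg Subtype.val (congrFun (congrArg Prod.fst h) x)
    have z2 : ∀ p, DD (c2 p).1 (c2 p).2 f = 0 := fun p =>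
      congrArg Subtype.val (congrFun (congrArg Prod.snd h) p)
    have key : ∀ (c d : σ) (e : Equiv.Perm σ), (∀ j, lab (e j) = lab j) → DD c d f = 0 →
        DD (e c) (e d) f = 0 := by
      intro c d e he h0
      have h1 := DD_perm c d f (Option.map e) (Option.map_injective e.injective) e rfl
        (fun j => rfl)
      rw [h0, map_zero, (mem_GP'.1 hf).2.2 e he] at h1
      exact h1.symm
    by_cases hb : (lab b).2 = 0
    · exact DD_zero hf a b (Or.inl hb)
    by_cases ha : (lab a).2 = 0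
    · exact DD_zero hf a b (Or.inr (Or.inl ha))
    by_cases hab : a = b
    · subst hab
      by_cases ha1 : (lab a).2 = 1
      · exact DD_zero hf a a (Or.inr (Or.inr ⟨rfl, ha1⟩))
      have hx : lab a ∈ P.toFinset.filter fun x => 2 ≤ x.2 :=
        Finset.mem_filter.2 ⟨Multiset.mem_toFinset.2 (hmem a), by omega⟩
      have h1 : lab (c1 ⟨lab a, hx⟩) = lab a := hc1 ⟨lab a, hx⟩
      have h2 := key _ _ (Equiv.swap (c1 ⟨lab a, hx⟩) a) (fun j => by
        by_cases h3 : j = c1 ⟨lab a, hx⟩
        · rw [h3, Equiv.swap_apply_left, h1]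
        by_cases h4 : j = a
        · rw [h4, Equiv.swap_apply_right, h1]
        rw [Equiv.swap_apply_of_ne_of_ne h3 h4]) (z1 ⟨lab a, hx⟩)
      rwa [Equiv.swap_apply_left] at h2
    · have hp : (lab a, lab b) ∈ (P.toFinset ×ˢ P.toFinset).filter
          (fun p => p.2 ∈ P.erase p.1 ∧ 1 ≤ p.1.2 ∧ 1 ≤ p.2.2) := by
        rw [Finset.mem_filter, Finset.mem_product]
        refine ⟨⟨Multiset.mem_toFinset.2 (hmem a), Multiset.mem_toFinset.2 (hmem b)⟩, ?_,
          Nat.one_le_iff_ne_zero.2 ha, Nat.one_le_iff_ne_zero.2 hb⟩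
        change lab b ∈ P.erase (lab a)
        rw [← hlab, map_erase lab a, Multiset.erase_cons_head, Multiset.mem_map]
        exact ⟨b, Finset.mem_erase.2 ⟨Ne.symm hab, Finset.mem_univ _⟩, rfl⟩
      obtain ⟨h1, h2, h3⟩ := hc2 ⟨_, hp⟩
      obtain ⟨e, he1, he2, he⟩ := exists_perm2 lab h1 hab h2 h3
      have h4 := key _ _ e he (z2 ⟨_, hp⟩)
      rwa [he1, he2] at h4
  have hfin := LinearMap.finrank_le_finrank_of_injective hinj
  rw [Module.finrank_prod, Module.finrank_pi_fintype, Module.finrank_pi_fintype] at hfin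
  have s1 : ∑ x, Module.finrank ℂ (GP (m + 1) (Option σ) (L1 x) nu) =
      ∑ x ∈ P.toFinset.filter (fun x => 2 ≤ x.2),
        G (m + 1) nu ((z, 2) ::ₘ (f1 x, x.2 - 2) ::ₘ P.erase x) := by
    refine Eq.trans (Finset.sum_congr rfl fun x _ => ?_) (Finset.sum_coe_sort _
      (fun x => G (m + 1) nu ((z, 2) ::ₘ (f1 x, x.2 - 2) ::ₘ P.erase x)))
    rw [trans, univ_option]
    congr 2
    change Finset.univ.val.map (Function.update lab (c1 x) (f1 x.1, x.1.2 - 2)) = _
    rw [map_update, hlab, hc1]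
  have s2 : ∑ p, Module.finrank ℂ (GP (m + 1) (Option σ) (L2 p) nu) =
      ∑ p ∈ (P.toFinset ×ˢ P.toFinset).filter
        (fun p => p.2 ∈ P.erase p.1 ∧ 1 ≤ p.1.2 ∧ 1 ≤ p.2.2),
      G (m + 1) nu ((z, 2) ::ₘ (f2 p.1 p.2, p.1.2 - 1) ::ₘ (f3 p.1 p.2, p.2.2 - 1) ::ₘ
        (P.erase p.1).erase p.2) := by
    refine Eq.trans (Finset.sum_congr rfl fun p _ => ?_) (Finset.sum_coe_sort _
      (fun p : (ℕ × ℕ) × (ℕ × ℕ) => G (m + 1) nu ((z, 2) ::ₘ (f2 p.1 p.2, p.1.2 - 1) ::ₘ
        (f3 p.1 p.2, p.2.2 - 1) ::ₘ (P.erase p.1).erase p.2)))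
    obtain ⟨hne, hcx, hcy⟩ := hc2 p
    rw [trans, univ_option]
    congr 2
    change Finset.univ.val.map (Function.update (Function.update lab (c2 p).1 _) (c2 p).2 _) = _
    rw [map_update, map_update, hlab, Function.update_of_ne hne.symm, hcx, hcy,
      Multiset.erase_cons_tail, Multiset.cons_swap]
    obtain ⟨h1, h2, h3, h4⟩ := Finset.mem_filter.1 p.2
    have hxP := Multiset.mem_toFinset.1 (Finset.mem_product.1 h1).1
    have hyP := Multiset.mem_toFinset.1 (Finset.mem_product.1 h1).2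
    intro h
    exact (H2 p.1.1 hxP p.1.2 h2 h3 h4).1 (by rw [h]; exact hyP)
  rw [← s1, ← s2]
  exact hfin

end Vale.Agent.P181.ST.H607
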